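import Mathlib

/-!
# Row 344 (parity is not in QAC0): definitions

`Fn ι` is the commutative C⋆-algebra of functions on bit patterns.  A *frame* is a unital
⋆-homomorphism `Φ : Fn ι →⋆ₐ[ℂ] 𝒜` (joint functional calculus of commuting projections
`Φ (coord i)`, one per wire).
-/

set_option autoImplicit false
set_option linter.unusedSectionVars false

namespace Crest.Agent.R344

open Finset

variable {ι : Type} [Fintype ι] [DecidableEq ι]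

/-- Functions on bit patterns. -/
abbrev Fn (ι : Type) : Type := (ι → Bool) → ℂ

/-- Number of `true` bits inside `S`. -/
def cnt (S : Finset ι) (z : ι → Bool) : ℕ := (S.filter fun i => z i = true).card

/-- Indicator of `z i = true`. -/
def coord (i : ι) : Fn ι := fun z => if z i = true then 1 else 0

/-- Indicator of "all bits in `T` are true". -/
def mono (T : Finset ι) : Fn ι := fun z => if ∀ i ∈ T, z i = true then 1 else 0

/-- Indicator of "all bits in `S` are false". -/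
def vac (S : Finset ι) : Fn ι := fun z => if ∀ i ∈ S, z i = false then 1 else 0

/-- Indicator of `M ≤ cnt S`. -/
def ge (S : Finset ι) (M : ℕ) : Fn ι := fun z => if M ≤ cnt S z then 1 else 0

/-- Indicator of `cnt S ≤ a`. -/
def le (S : Finset ι) (a : ℕ) : Fn ι := fun z => if cnt S z ≤ a then 1 else 0

/-- The sign function of a layer of reflections about vacua of the blocks in `𝒢`. -/
def sgn (𝒢 : Finset (Finset ι)) : Fn ι := ∏ g ∈ 𝒢, (1 - 2 * vac g)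

/-- `f` is a combination of monomials of degree `≤ D` with total coefficient mass `≤ B`
(stated dually, through seminorms). -/
def LowDeg (D : ℕ) (B : ℝ) (f : Fn ι) : Prop :=
  ∀ (ν : Seminorm ℂ (Fn ι)) (η : ℝ), (∀ T : Finset ι, T.card ≤ D → ν (mono T) ≤ η) →
    ν f ≤ B * η

/-- `f` only depends on the coordinates in `B`. -/
def DepOn (B : Finset ι) (f : Fn ι) : Prop :=
  ∀ z z' : ι → Bool, (∀ i ∈ B, z i = z' i) → f z = f z'

variable {𝒜 : Type} [CStarAlgebra 𝒜]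

/-- Frames. -/
abbrev Frame (ι 𝒜 : Type) [Fintype ι] [CStarAlgebra 𝒜] : Type := Fn ι →⋆ₐ[ℂ] 𝒜

/-- Monomials of the frame `Φ` move the counts of the frame `Ψ` by a bounded factor. -/
def Band (Φ Ψ : Frame ι 𝒜) (K : ℕ) : Prop :=
  ∀ (T S : Finset ι) (a x : ℕ),
    ‖Ψ (ge S (K * (a + T.card + x))) * Φ (mono T) * Ψ (le S a)‖ ≤ (1 / 2 : ℝ) ^ x

/-- One instance of the vacuum estimate. -/
def RHat (Φ Ψ : Frame ι 𝒜) (A : Finset ι) (κ x : ℕ) : Prop :=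
  ∀ S : Finset ι, ‖Ψ (ge S (κ * x)) * Φ (vac A) * Ψ (vac S)‖ ≤ (1 / 2 : ℝ) ^ x

/-- Vacuum projections of the frame `Φ` create few excitations in the frame `Ψ`. -/
def RH (Φ Ψ : Frame ι 𝒜) (κ : ℕ) : Prop := ∀ (A : Finset ι) (x : ℕ), RHat Φ Ψ A κ x

/-- Conjugating a frame by a unitary. -/
noncomputable def conj (u : unitary 𝒜) (Φ : Frame ι 𝒜) : Frame ι 𝒜 :=
  (Unitary.conjStarAlgAut ℂ 𝒜 u : 𝒜 →⋆ₐ[ℂ] 𝒜).comp Φ

@[simp] lemma conj_apply (u : unitary 𝒜) (Φ : Frame ι 𝒜) (f : Fn ι) :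
    conj u Φ f = (u : 𝒜) * Φ f * star (u : 𝒜) := rfl

/-- Projections of the family attached to different wires commute. -/
def FrameComm (𝓕 : Set (Frame ι 𝒜)) : Prop :=
  ∀ Φ ∈ 𝓕, ∀ Ψ ∈ 𝓕, ∀ j k : ι, j ≠ k → Commute (Φ (coord j)) (Ψ (coord k))

/-- A layer is either a unitary normalising the family of frames (a layer of one-qubit gates)
or a product of reflections about vacua of pairwise disjoint blocks. -/
def IsLayer (𝓕 : Set (Frame ι 𝒜)) (u : unitary 𝒜) : Prop :=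
  (∀ Φ ∈ 𝓕, conj u Φ ∈ 𝓕 ∧ conj (star u) Φ ∈ 𝓕) ∨
    ∃ W ∈ 𝓕, ∃ 𝒢 : Finset (Finset ι), (∀ g ∈ 𝒢, ∀ h ∈ 𝒢, g ≠ h → Disjoint g h) ∧
      (u : 𝒜) = W (sgn 𝒢)

/-- All circuits with at most `t` layers are banded with constant `K`. -/
def BandAll (𝓕 : Set (Frame ι 𝒜)) (t K : ℕ) : Prop :=
  ∀ c : List (unitary 𝒜), c.length ≤ t → (∀ u ∈ c, IsLayer 𝓕 u) →
    ∀ Φ ∈ 𝓕, ∀ Ψ ∈ 𝓕, Band (conj c.prod Φ) Ψ K

/-! ### Basic facts -/

lemma norm_frame_le (Φ : Frame ι 𝒜) (f : Fn ι) {B : ℝ} (hB : 0 ≤ B) (h : ∀ z, ‖f z‖ ≤ B) :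
    ‖Φ f‖ ≤ B :=
  (NonUnitalStarAlgHom.norm_apply_le Φ f).trans ((pi_norm_le_iff_of_nonneg hB).2 h)

lemma norm_ind_le (Φ : Frame ι 𝒜) (p : (ι → Bool) → Prop) [DecidablePred p] :
    ‖Φ (fun z => if p z then 1 else 0)‖ ≤ 1 :=
  norm_frame_le Φ _ zero_le_one fun z => by split_ifs <;> simp

lemma norm_ge_le (Φ : Frame ι 𝒜) (S : Finset ι) (M : ℕ) : ‖Φ (ge S M)‖ ≤ 1 := norm_ind_le Φ _
lemma norm_le_le (Φ : Frame ι 𝒜) (S : Finset ι) (M : ℕ) : ‖Φ (le S M)‖ ≤ 1 := norm_ind_le Φ _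
lemma norm_vac_le (Φ : Frame ι 𝒜) (S : Finset ι) : ‖Φ (vac S)‖ ≤ 1 := norm_ind_le Φ _
lemma norm_mono_le (Φ : Frame ι 𝒜) (S : Finset ι) : ‖Φ (mono S)‖ ≤ 1 := norm_ind_le Φ _

lemma cnt_eq_zero {S : Finset ι} {z : ι → Bool} : cnt S z = 0 ↔ ∀ i ∈ S, z i = false := by
  simp [cnt, Finset.card_eq_zero, Finset.filter_eq_empty_iff]

lemma le_zero_eq_vac (S : Finset ι) : le S 0 = vac S := by
  funext z; simp [le, vac, cnt_eq_zero]

lemma cnt_le_card (S : Finset ι) (z : ι → Bool) : cnt S z ≤ Fintype.card ι :=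
  Finset.card_le_univ _

/-- Left domination: if `f = f * g` pointwise and `‖f‖ ≤ 1` then `‖Ψ f * X‖ ≤ ‖Ψ g * X‖`. -/
lemma norm_left_le (Ψ : Frame ι 𝒜) {f g : Fn ι} (hfg : f = f * g) (hf : ‖Ψ f‖ ≤ 1) (X : 𝒜) :
    ‖Ψ f * X‖ ≤ ‖Ψ g * X‖ := by
  calc ‖Ψ f * X‖ = ‖Ψ f * (Ψ g * X)‖ := by rw [← mul_assoc, ← map_mul, ← hfg]
    _ ≤ ‖Ψ f‖ * ‖Ψ g * X‖ := norm_mul_le _ _
    _ ≤ 1 * ‖Ψ g * X‖ := by gcongr
    _ = _ := one_mul _

/-- Right domination. -/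
lemma norm_right_le (Ψ : Frame ι 𝒜) {f g : Fn ι} (hfg : f = g * f) (hf : ‖Ψ f‖ ≤ 1) (X : 𝒜) :
    ‖X * Ψ f‖ ≤ ‖X * Ψ g‖ := by
  calc ‖X * Ψ f‖ = ‖(X * Ψ g) * Ψ f‖ := by rw [mul_assoc, ← map_mul, ← hfg]
    _ ≤ ‖X * Ψ g‖ * ‖Ψ f‖ := norm_mul_le _ _
    _ ≤ ‖X * Ψ g‖ * 1 := by gcongr
    _ = _ := mul_one _

/-- Raising the threshold only decreases the norm. -/
lemma norm_ge_mono (Ψ : Frame ι 𝒜) (S : Finset ι) {M M' : ℕ} (h : M ≤ M') (X : 𝒜) :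
    ‖Ψ (ge S M') * X‖ ≤ ‖Ψ (ge S M) * X‖ := by
  refine norm_left_le Ψ ?_ (norm_ge_le _ _ _) X
  funext z
  simp only [ge, Pi.mul_apply]
  split_ifs with h1 h2
  · simp
  · omega
  · simp
  · simp

lemma Band.mono {Φ Ψ : Frame ι 𝒜} {K K' : ℕ} (h : Band Φ Ψ K) (hK : K ≤ K') : Band Φ Ψ K' := by
  intro T S a x
  refine le_trans ?_ (h T S a x)
  rw [mul_assoc, mul_assoc]
  exact norm_ge_mono Ψ S (Nat.mul_le_mul_right _ hK) _

lemma RH.mono {Φ Ψ : Frame ι 𝒜} {K K' : ℕ} (h : RH Φ Ψ K) (hK : K ≤ K') : RH Φ Ψ K' := by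
  intro A x S
  refine le_trans ?_ (h A x S)
  rw [mul_assoc, mul_assoc]
  exact norm_ge_mono Ψ S (Nat.mul_le_mul_right _ hK) _

lemma BandAll.mono {𝓕 : Set (Frame ι 𝒜)} {t K K' : ℕ} (h : BandAll 𝓕 t K) (hK : K ≤ K') :
    BandAll 𝓕 t K' := fun c hc hl Φ hΦ Ψ hΨ => (h c hc hl Φ hΦ Ψ hΨ).mono hK

lemma star_ind (Φ : Frame ι 𝒜) (p : (ι → Bool) → Prop) [DecidablePred p] :
    star (Φ (fun z => if p z then 1 else 0)) = Φ (fun z => if p z then 1 else 0) := by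
  rw [← map_star]; congr 1; funext z; simp only [Pi.star_apply]; split_ifs <;> simp

/-- The seminorm `f ↦ ‖X * Φ f * Y‖`. -/
noncomputable def sandwich (X : 𝒜) (Φ : Frame ι 𝒜) (Y : 𝒜) : Seminorm ℂ (Fn ι) :=
  (normSeminorm ℂ 𝒜).comp
    ((LinearMap.mulRight ℂ Y).comp ((LinearMap.mulLeft ℂ X).comp Φ.toAlgHom.toLinearMap))

@[simp] lemma sandwich_apply (X : 𝒜) (Φ : Frame ι 𝒜) (Y : 𝒜) (f : Fn ι) :
    sandwich X Φ Y f = ‖X * Φ f * Y‖ := rfl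

end Crest.Agent.R344
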