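import Crest.Agent.R344.Defs

/-!
# Row 344: the concrete frames on `(ℂ²)^{⊗ ι}`
-/

set_option autoImplicit false
set_option linter.unusedSectionVars false

namespace Crest.Agent.R344

open Finset
open scoped Matrix.Norms.L2Operator

variable {ι : Type} [Fintype ι] [DecidableEq ι]

/-- Operators on the `ι`-qubit space. -/
abbrev Mat (ι : Type) : Type := Matrix (ι → Bool) (ι → Bool) ℂ

/-- Tensor product of one-qubit operators. -/
def tens (a : ι → Matrix Bool Bool ℂ) : Mat ι := fun σ τ => ∏ i, a i (σ i) (τ i)

lemma tens_apply (a : ι → Matrix Bool Bool ℂ) (σ τ : ι → Bool) :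
    tens a σ τ = ∏ i, a i (σ i) (τ i) := rfl

lemma tens_mul (a b : ι → Matrix Bool Bool ℂ) : tens a * tens b = tens fun i => a i * b i := by
  ext σ τ
  simp only [Matrix.mul_apply, tens_apply]
  rw [Finset.prod_univ_sum]
  simp only [Fintype.piFinset_univ, Finset.prod_mul_distrib]

lemma tens_one : tens (fun _ : ι => (1 : Matrix Bool Bool ℂ)) = 1 := by
  ext σ τ
  simp only [tens_apply, Matrix.one_apply]
  by_cases h : σ = τ
  · simp [h]
  · rw [if_neg h]
    obtain ⟨i, hi⟩ := Function.ne_iff.1 h
    exact Finset.prod_eq_zero (Finset.mem_univ i) (if_neg hi)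

lemma star_tens (a : ι → Matrix Bool Bool ℂ) : star (tens a) = tens fun i => star (a i) := by
  ext σ τ
  simp [tens_apply, Matrix.star_apply]

lemma tens_eq_zero {a : ι → Matrix Bool Bool ℂ} (i : ι) (h : a i = 0) : tens a = 0 := by
  ext σ τ
  exact Finset.prod_eq_zero (Finset.mem_univ i) (by simp [h])

/-- Multilinearity of `tens`. -/
lemma sum_tens (a : ι → Bool → Matrix Bool Bool ℂ) :
    ∑ z : ι → Bool, tens (fun i => a i (z i)) = tens fun i => a i true + a i false := by
  ext σ τ
  simp only [Matrix.sum_apply, tens_apply, Matrix.add_apply]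
  have := Finset.prod_univ_sum (fun _ : ι => (Finset.univ : Finset Bool))
    (fun i b => a i b (σ i) (τ i))
  simp only [Fintype.piFinset_univ, Fintype.sum_bool] at this
  exact this.symm

lemma smul_tens (c : ι → ℂ) (a : ι → Matrix Bool Bool ℂ) :
    (∏ i, c i) • tens a = tens fun i => c i • a i := by
  ext σ τ
  simp [tens_apply, Finset.prod_mul_distrib]

/-- The spectral projection of the pattern `z` for the family of projections `p`. -/
def atom (p : ι → Matrix Bool Bool ℂ) (z : ι → Bool) : Mat ι :=
  tens fun i => if z i = true then p i else 1 - p i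

lemma sum_atom (p : ι → Matrix Bool Bool ℂ) : ∑ z, atom p z = 1 := by
  have := sum_tens (fun i b => if b = true then p i else 1 - p i)
  simp only [if_true, Bool.false_eq_true, if_false, add_sub_cancel] at this
  rw [← tens_one, ← this]; rfl

lemma atom_mul {p : ι → Matrix Bool Bool ℂ} (hp : ∀ i, IsStarProjection (p i)) (z z' : ι → Bool) :
    atom p z * atom p z' = if z = z' then atom p z else 0 := by
  unfold atom
  rw [tens_mul]
  split_ifs with h
  · subst h
    congr 1; funext i
    split_ifs
    · exact (hp i).isIdempotentElem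
    · exact (hp i).one_sub.isIdempotentElem
  · obtain ⟨i, hi⟩ := Function.ne_iff.1 h
    refine tens_eq_zero i ?_
    have h1 := (hp i).isIdempotentElem.eq
    cases hz : z i <;> cases hz' : z' i <;> simp_all [mul_sub, sub_mul]

lemma star_atom {p : ι → Matrix Bool Bool ℂ} (hp : ∀ i, IsStarProjection (p i)) (z : ι → Bool) :
    star (atom p z) = atom p z := by
  unfold atom
  rw [star_tens]
  congr 1; funext i
  split_ifs
  · exact (hp i).isSelfAdjoint
  · exact (hp i).one_sub.isSelfAdjoint

/-- The frame of a family of one-qubit projections. -/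
noncomputable def frameOf (p : ι → Matrix Bool Bool ℂ) (hp : ∀ i, IsStarProjection (p i)) :
    Frame ι (Mat ι) where
  toFun f := ∑ z, f z • atom p z
  map_one' := by simp [sum_atom]
  map_mul' f g := by
    rw [Finset.sum_mul_sum]
    refine Finset.sum_congr rfl fun z _ => ?_
    simp only [smul_mul_smul_comm, atom_mul hp, smul_ite, smul_zero, Finset.sum_ite_eq,
      Finset.mem_univ, if_true, Pi.mul_apply]
  map_zero' := by simp
  map_add' f g := by simp [add_smul, Finset.sum_add_distrib]
  commutes' c := by
    simp [Algebra.algebraMap_eq_smul_one, ← Finset.smul_sum, sum_atom]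
  map_star' f := by simp [star_sum, star_atom hp]

lemma frameOf_apply (p : ι → Matrix Bool Bool ℂ) (hp : ∀ i, IsStarProjection (p i)) (f : Fn ι) :
    frameOf p hp f = ∑ z, f z • atom p z := rfl

/-- A frame on a product function is a tensor product. -/
lemma frameOf_prod (p : ι → Matrix Bool Bool ℂ) (hp : ∀ i, IsStarProjection (p i))
    (c : ι → Bool → ℂ) :
    frameOf p hp (fun z => ∏ i, c i (z i)) =
      tens fun i => c i true • p i + c i false • (1 - p i) := by
  rw [frameOf_apply]
  have := sum_tens (fun i b => c i b • if b = true then p i else 1 - p i)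
  simp only [if_true, Bool.false_eq_true, if_false] at this
  rw [← this]
  refine Finset.sum_congr rfl fun z _ => ?_
  rw [atom, smul_tens]

lemma frameOf_vac (p : ι → Matrix Bool Bool ℂ) (hp : ∀ i, IsStarProjection (p i)) (A : Finset ι) :
    frameOf p hp (vac A) = tens fun i => if i ∈ A then 1 - p i else 1 := by
  have h : vac A = fun z : ι → Bool =>
      ∏ i, (fun i b => if i ∈ A ∧ b = true then (0 : ℂ) else 1) i (z i) := by
    funext z
    simp only [vac]
    split_ifs with h
    · exact (Finset.prod_eq_one fun i _ => if_neg fun hh => by simp [h i hh.1] at hh).symm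
    · push Not at h
      obtain ⟨i, hi, hz⟩ := h
      symm
      refine Finset.prod_eq_zero (Finset.mem_univ i) ?_
      exact if_pos ⟨hi, by simpa using hz⟩
  rw [h, frameOf_prod p hp (fun i b => if i ∈ A ∧ b = true then (0 : ℂ) else 1)]
  congr 1; funext i
  by_cases hi : i ∈ A <;> simp [hi]

lemma frameOf_coord (p : ι → Matrix Bool Bool ℂ) (hp : ∀ i, IsStarProjection (p i)) (j : ι) :
    frameOf p hp (coord j) = tens fun i => if i = j then p i else 1 := by
  have h : coord j = fun z : ι → Bool =>
      ∏ i, (fun i b => if i = j ∧ b = false then (0 : ℂ) else 1) i (z i) := by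
    funext z
    simp only [coord]
    split_ifs with h
    · exact (Finset.prod_eq_one fun i _ => if_neg fun hh => by
        obtain ⟨rfl, h2⟩ := hh; simp [h] at h2).symm
    · symm
      refine Finset.prod_eq_zero (Finset.mem_univ j) ?_
      exact if_pos ⟨rfl, by simpa using h⟩
  rw [h, frameOf_prod p hp (fun i b => if i = j ∧ b = false then (0 : ℂ) else 1)]
  congr 1; funext i
  by_cases hi : i = j <;> simp [hi]

/-- All product frames. -/
def frames (ι : Type) [Fintype ι] [DecidableEq ι] : Set (Frame ι (Mat ι)) :=
  {Φ | ∃ (p : ι → Matrix Bool Bool ℂ) (hp : ∀ i, IsStarProjection (p i)), Φ = frameOf p hp}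

lemma frameOf_mem (p : ι → Matrix Bool Bool ℂ) (hp : ∀ i, IsStarProjection (p i)) :
    frameOf p hp ∈ frames ι := ⟨p, hp, rfl⟩

theorem frameComm_frames : FrameComm (frames ι) := by
  rintro _ ⟨p, hp, rfl⟩ _ ⟨q, hq, rfl⟩ j k hjk
  rw [frameOf_coord, frameOf_coord]
  unfold Commute SemiconjBy
  rw [tens_mul, tens_mul]
  congr 1; funext i
  by_cases h1 : i = j
  · subst h1; simp [hjk]
  · simp [h1]

end Crest.Agent.R344
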