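import Crest.Prelude.Def_QCircuit
import Crest.Agent.R344.Tens

/-!
# Row 344: circuits as products of abstract layers

Recipe.
* A gate acts by a matrix: `oneQubit i U` by `tens (fun j => if j = i then U else 1)`, and
  `toffoli S t` (with `t ∉ S`) by `1 - 2 • tens (fun j => if j ∈ S then e₁ else if j = t then m else 1)`,
  `e₁ = !![0,0;0,1]` (projection on `true`), `m = ½ !![1,-1;-1,1]`; this is
  `frameOf p hp (1 - 2 * vac (insert t S))` as soon as `1 - p j = e₁` on `S` and `1 - p t = m`
  (`frameOf_vac`).  (Equivalently the Toffoli matrix is `1 - E + E'`, `E = tens (e₁ on S)`,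
  `E' = tens (e₁ on S, X on t)`.)
* For unitary `V j`, `tens V` is unitary and `conj (tens V) (frameOf p) = frameOf (V p V⋆)`
  (`tens_mul`, `star_tens`, on atoms), so it is a layer of the first kind.
* For a well-formed layer `L` (induction on the list; `applyLayer (g :: L) ψ = applyLayer L (g.apply ψ)`),
  there are unitaries `V j` (equal to `1` off the union `B` of the supports), projections `p j`, and
  a finset `𝒢` of pairwise disjoint nonempty subsets of `B` with
  `applyLayer L ψ = (tens V * frameOf p hp (sgn 𝒢)).mulVec ψ`.  Note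
  `frameOf p hp (sgn 𝒢) = ∏ (1 - 2 • tens (1 - p on g))` only depends on `p` on `B` and commutes
  with `tens (U at i)` for `i ∉ B` (induction on `𝒢`, `map_mul`, `frameOf_vac`).
  One may also define `V` and `p` globally from the list.
* `frameOf p hp (sgn 𝒢)` is unitary because `sgn 𝒢` is real with square `1`.
* The first layer of the circuit is the LAST entry of the list `c`.
-/

set_option autoImplicit false
set_option linter.unusedSectionVars false

namespace Crest.Agent.R344

open Finset Crest.Quantum.Circuit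
open scoped Matrix.Norms.L2Operator

section Aux

variable {ι : Type} [Fintype ι] [DecidableEq ι]

lemma tens_single_apply (i : ι) (U : Matrix Bool Bool ℂ) (σ τ : ι → Bool) :
    tens (fun j => if j = i then U else 1) σ τ
      = ∑ b : Bool, if τ = Function.update σ i b then U (σ i) b else 0 := by
  rw [tens_apply]
  by_cases h : τ = Function.update σ i (τ i)
  · rw [Finset.sum_eq_single (τ i), if_pos h, Finset.prod_eq_single i]
    · simp
    · intro j _ hj
      have : τ j = σ j := by rw [h, Function.update_of_ne hj]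
      rw [if_neg hj, this, Matrix.one_apply_eq]
    · simp
    · intro b _ hb
      refine if_neg fun h' => hb ?_
      rw [h']; simp
    · simp
  · rw [Finset.sum_eq_zero]
    · obtain ⟨j, hj⟩ := Function.ne_iff.1 h
      have hji : j ≠ i := by rintro rfl; simp at hj
      rw [Function.update_of_ne hji] at hj
      exact Finset.prod_eq_zero (Finset.mem_univ j) (by simp [hji, Ne.symm hj])
    · intro b _
      refine if_neg fun h' => h ?_
      have : τ i = b := by rw [h']; simp
      rw [this]; exact h'

lemma tens_single_mulVec (i : ι) (U : Matrix Bool Bool ℂ) (ψ : (ι → Bool) → ℂ) (σ : ι → Bool) :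
    (tens (fun j => if j = i then U else 1)).mulVec ψ σ
      = ∑ b : Bool, U (σ i) b * ψ (Function.update σ i b) := by
  simp only [Matrix.mulVec, dotProduct, tens_single_apply, Finset.sum_mul]
  rw [Finset.sum_comm]
  refine Finset.sum_congr rfl fun b _ => ?_
  simp [ite_mul]

lemma tens_diagonal (d : ι → Bool → ℂ) :
    tens (fun j => Matrix.diagonal (d j)) = Matrix.diagonal fun σ => ∏ j, d j (σ j) := by
  ext σ τ
  simp only [tens_apply, Matrix.diagonal_apply]
  by_cases h : σ = τ
  · simp [h]
  · rw [if_neg h]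
    obtain ⟨i, hi⟩ := Function.ne_iff.1 h
    exact Finset.prod_eq_zero (Finset.mem_univ i) (if_neg hi)

/-- projection on `|1⟩` -/
def e1 : Matrix Bool Bool ℂ := Matrix.diagonal fun b => if b = true then 1 else 0

/-- projection on `|-⟩` -/
noncomputable def em : Matrix Bool Bool ℂ := Matrix.of fun a b => if a = b then 1 / 2 else -1 / 2

lemma e1_proj : IsStarProjection e1 := by
  constructor
  · ext a b
    cases a <;> cases b <;> simp [e1]
  · ext a b
    cases a <;> cases b <;> simp [e1, Matrix.star_apply]

lemma em_proj : IsStarProjection em := by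
  constructor
  · ext a b
    cases a <;> cases b <;> simp [em, Matrix.mul_apply] <;> norm_num
  · ext a b
    cases a <;> cases b <;> simp [em, Matrix.star_apply]

lemma toffoli_mulVec (S : Finset ι) (t : ι) (ht : t ∉ S) (ψ : (ι → Bool) → ℂ) (σ : ι → Bool) :
    ((1 : Mat ι) - 2 * tens (fun j => if j ∈ S then e1 else if j = t then em else 1)).mulVec ψ σ
      = ψ (Function.update σ t (xor (σ t) (decide (∀ i ∈ S, σ i = true)))) := by
  have h1 : tens (fun j => if j ∈ S then e1 else if j = t then em else 1)
      = tens (fun j => Matrix.diagonal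
          fun b => if j ∈ S then (if b = true then (1 : ℂ) else 0) else 1)
        * tens (fun j => if j = t then em else 1) := by
    rw [tens_mul]
    congr 1
    funext j
    by_cases hj : j ∈ S
    · have : j ≠ t := by rintro rfl; exact ht hj
      simp [hj, this, e1]
    · simp [hj]
  have h2 : (∏ j, if j ∈ S then (if σ j = true then (1 : ℂ) else 0) else 1)
      = if ∀ i ∈ S, σ i = true then 1 else 0 := by
    split_ifs with h
    · refine Finset.prod_eq_one fun j _ => ?_
      by_cases hj : j ∈ S
      · simp [hj, h j hj]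
      · simp [hj]
    · push Not at h
      obtain ⟨i, hi, hz⟩ := h
      exact Finset.prod_eq_zero (Finset.mem_univ i) (by simp [hi, hz])
  rw [h1, tens_diagonal, two_mul, Matrix.sub_mulVec, Matrix.add_mulVec, Matrix.one_mulVec,
    ← Matrix.mulVec_mulVec]
  simp only [Pi.sub_apply, Pi.add_apply, Matrix.mulVec_diagonal, tens_single_mulVec, h2]
  by_cases h : ∀ i ∈ S, σ i = true
  · rw [if_pos h, decide_eq_true h]
    have h3 : ψ σ = ψ (Function.update σ t (σ t)) := by simp
    rw [h3]
    cases σ t <;> simp [em] <;> ring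
  · rw [if_neg h, decide_eq_false h]
    simp

lemma frameOf_refl (p : ι → Matrix Bool Bool ℂ) (hp : ∀ i, IsStarProjection (p i))
    (g : Finset ι) :
    frameOf p hp (1 - 2 * vac g) = 1 - 2 * tens fun i => if i ∈ g then 1 - p i else 1 := by
  rw [two_mul, two_mul, map_sub, map_add, map_one, frameOf_vac]

lemma sgn_insert {𝒢 : Finset (Finset ι)} {g : Finset ι} (hg : g ∉ 𝒢) :
    sgn (insert g 𝒢) = (1 - 2 * vac g) * sgn 𝒢 := Finset.prod_insert hg

lemma frameOf_sgn_congr {p q : ι → Matrix Bool Bool ℂ} (hp : ∀ i, IsStarProjection (p i))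
    (hq : ∀ i, IsStarProjection (q i)) (𝒢 : Finset (Finset ι))
    (h : ∀ s ∈ 𝒢, ∀ j ∈ s, p j = q j) : frameOf p hp (sgn 𝒢) = frameOf q hq (sgn 𝒢) := by
  induction 𝒢 using Finset.induction_on with
  | empty => simp [sgn]
  | insert g 𝒢 hg ih =>
    rw [sgn_insert hg, map_mul, map_mul, frameOf_refl, frameOf_refl,
      ih fun s hs => h s (Finset.mem_insert_of_mem hs)]
    congr 4
    funext j
    by_cases hj : j ∈ g
    · simp [hj, h g (Finset.mem_insert_self _ _) j hj]
    · simp [hj]

lemma commute_sgn {p : ι → Matrix Bool Bool ℂ} (hp : ∀ i, IsStarProjection (p i))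
    (𝒢 : Finset (Finset ι)) (i : ι) (U : Matrix Bool Bool ℂ) (h : ∀ s ∈ 𝒢, i ∉ s) :
    Commute (frameOf p hp (sgn 𝒢)) (tens fun j => if j = i then U else 1) := by
  induction 𝒢 using Finset.induction_on with
  | empty => simp [sgn]
  | insert g 𝒢 hg ih =>
    rw [sgn_insert hg, map_mul, frameOf_refl]
    refine Commute.mul_left ?_ (ih fun s hs => h s (Finset.mem_insert_of_mem hs))
    have : Commute (tens fun i => if i ∈ g then 1 - p i else 1)
        (tens fun j => if j = i then U else 1) := by
      unfold Commute SemiconjBy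
      rw [tens_mul, tens_mul]
      congr 1; funext j
      by_cases h1 : j = i
      · subst h1; simp [h g (Finset.mem_insert_self _ _)]
      · simp [h1]
    rw [two_mul]
    exact (Commute.one_left _).sub_left (this.add_left this)

lemma sgn_mul_self (𝒢 : Finset (Finset ι)) : sgn 𝒢 * sgn 𝒢 = 1 := by
  rw [sgn, ← Finset.prod_mul_distrib]
  refine Finset.prod_eq_one fun g _ => ?_
  funext z
  simp only [vac, Pi.mul_apply, Pi.sub_apply, Pi.ofNat_apply]
  split_ifs <;> norm_num

lemma star_sgn (𝒢 : Finset (Finset ι)) : star (sgn 𝒢) = sgn 𝒢 := by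
  rw [sgn, star_prod]
  refine Finset.prod_congr rfl fun g _ => ?_
  funext z
  simp only [vac, Pi.star_apply, Pi.mul_apply, Pi.sub_apply, Pi.ofNat_apply]
  split_ifs <;> simp

lemma frame_sgn_mem (Φ : Frame ι (Mat ι)) (𝒢 : Finset (Finset ι)) :
    Φ (sgn 𝒢) ∈ unitary (Mat ι) := by
  have h1 : star (Φ (sgn 𝒢)) = Φ (sgn 𝒢) := by rw [← map_star, star_sgn]
  have h2 : Φ (sgn 𝒢) * Φ (sgn 𝒢) = 1 := by rw [← map_mul, sgn_mul_self, map_one]
  exact Unitary.mem_iff.2 ⟨by rw [h1, h2], by rw [h1, h2]⟩

lemma tens_mem {V : ι → Matrix Bool Bool ℂ} (hV : ∀ j, V j ∈ unitary (Matrix Bool Bool ℂ)) :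
    tens V ∈ unitary (Mat ι) := by
  refine Unitary.mem_iff.2 ⟨?_, ?_⟩
  · rw [star_tens, tens_mul, ← tens_one]
    congr 1; funext j; exact (Unitary.mem_iff.1 (hV j)).1
  · rw [star_tens, tens_mul, ← tens_one]
    congr 1; funext j; exact (Unitary.mem_iff.1 (hV j)).2

lemma conj_mem_frames {V : ι → Matrix Bool Bool ℂ}
    (hV : ∀ j, V j ∈ unitary (Matrix Bool Bool ℂ)) (u : unitary (Mat ι))
    (hu : (u : Mat ι) = tens V) {Φ : Frame ι (Mat ι)} (hΦ : Φ ∈ frames ι) :
    conj u Φ ∈ frames ι := by
  obtain ⟨p, hp, rfl⟩ := hΦ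
  have hq : ∀ j, IsStarProjection (V j * p j * star (V j)) := by
    intro j
    constructor
    · show V j * p j * star (V j) * (V j * p j * star (V j)) = _
      calc V j * p j * star (V j) * (V j * p j * star (V j))
          = V j * (p j * (star (V j) * V j) * p j) * star (V j) := by simp only [mul_assoc]
        _ = _ := by rw [(Unitary.mem_iff.1 (hV j)).1, mul_one, (hp j).isIdempotentElem.eq]
    · show star (V j * p j * star (V j)) = _
      rw [star_mul, star_mul, star_star, (hp j).isSelfAdjoint.star_eq, mul_assoc]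
  refine ⟨fun j => V j * p j * star (V j), hq, ?_⟩
  ext1 f
  rw [conj_apply, frameOf_apply, frameOf_apply, hu, Finset.mul_sum, Finset.sum_mul]
  refine Finset.sum_congr rfl fun z _ => ?_
  rw [mul_smul_comm, smul_mul_assoc, star_tens, atom, atom, tens_mul, tens_mul]
  congr 2
  funext j
  split_ifs
  · rfl
  · rw [mul_sub, sub_mul, mul_one, (Unitary.mem_iff.1 (hV j)).2]

lemma isLayer_tens {V : ι → Matrix Bool Bool ℂ}
    (hV : ∀ j, V j ∈ unitary (Matrix Bool Bool ℂ)) :
    IsLayer (frames ι) ⟨tens V, tens_mem hV⟩ :=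
  Or.inl fun _ hΦ => ⟨conj_mem_frames hV _ rfl hΦ,
    conj_mem_frames (V := fun j => star (V j)) (fun j => Unitary.star_mem (hV j)) _
      (star_tens V) hΦ⟩

end Aux

lemma layer_decomp {N : ℕ} (L : List (Gate N)) (hL : LayerWF L) :
    ∃ (V p : Fin N → Matrix Bool Bool ℂ) (hp : ∀ i, IsStarProjection (p i))
      (𝒢 : Finset (Finset (Fin N))), (∀ j, V j ∈ unitary (Matrix Bool Bool ℂ)) ∧
      (∀ g ∈ 𝒢, ∀ h ∈ 𝒢, g ≠ h → Disjoint g h) ∧
      (∀ s ∈ 𝒢, ∀ j ∈ s, ∃ g ∈ L, j ∈ g.support) ∧
      ∀ ψ : QState N, applyLayer L ψ = (tens V * frameOf p hp (sgn 𝒢)).mulVec ψ := by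
  induction L with
  | nil =>
    refine ⟨fun _ => 1, fun _ => 1, fun _ => IsStarProjection.one _, ∅, fun _ => one_mem _,
      by simp, by simp, fun ψ => ?_⟩
    simp [applyLayer, tens_one, sgn]
  | cons g L ih =>
    obtain ⟨hw, hd⟩ := hL
    rw [List.pairwise_cons] at hd
    obtain ⟨V, p, hp, 𝒢, hV, h𝒢, hsub, hψ⟩ :=
      ih ⟨fun g' hg' => hw g' (List.mem_cons_of_mem _ hg'), hd.2⟩
    have hg := hw g List.mem_cons_self
    have hout : ∀ s ∈ 𝒢, ∀ j ∈ s, j ∉ g.support := by
      intro s hs j hj hjg
      obtain ⟨g', hg', hj'⟩ := hsub s hs j hj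
      exact Finset.disjoint_left.1 (hd.1 g' hg') hjg hj'
    have hsub' : ∀ s ∈ 𝒢, ∀ j ∈ s, ∃ g' ∈ g :: L, j ∈ g'.support := by
      intro s hs j hj
      obtain ⟨g', hg', hj'⟩ := hsub s hs j hj
      exact ⟨g', List.mem_cons_of_mem _ hg', hj'⟩
    cases g with
    | oneQubit i U =>
      refine ⟨fun j => V j * if j = i then U else 1, p, hp, 𝒢, fun j => ?_, h𝒢, hsub',
        fun ψ => ?_⟩
      · refine mul_mem (hV j) ?_
        split_ifs
        · exact hg
        · exact one_mem _
      · have e1 : (Gate.oneQubit i U).apply ψ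
            = (tens (fun j => if j = i then U else 1)).mulVec ψ := by
          funext σ; rw [tens_single_mulVec]; rfl
        have e2 := commute_sgn hp 𝒢 i U fun s hs hi =>
          hout s hs i hi (Finset.mem_singleton_self i)
        show applyLayer L ((Gate.oneQubit i U).apply ψ) = _
        rw [hψ, e1, Matrix.mulVec_mulVec, mul_assoc, e2.eq, ← mul_assoc, tens_mul]
    | toffoli S t =>
      have ht : t ∉ S := hg
      let q : Fin N → Matrix Bool Bool ℂ := fun j =>
        if j ∈ S then 1 - e1 else if j = t then 1 - em else p j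
      have hq : ∀ j, IsStarProjection (q j) := by
        intro j
        simp only [q]
        split_ifs
        · exact e1_proj.one_sub
        · exact em_proj.one_sub
        · exact hp j
      have hnot : insert t S ∉ 𝒢 := fun h =>
        hout _ h t (Finset.mem_insert_self _ _) (Finset.mem_insert_self _ _)
      have hdis : ∀ s ∈ 𝒢, Disjoint s (insert t S) := fun s hs =>
        Finset.disjoint_left.2 fun j hj => hout s hs j hj
      refine ⟨V, q, hq, insert (insert t S) 𝒢, hV, ?_, ?_, fun ψ => ?_⟩
      · intro a ha b hb hab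
        rcases Finset.mem_insert.1 ha with rfl | ha
        · rcases Finset.mem_insert.1 hb with rfl | hb
          · exact absurd rfl hab
          · exact (hdis b hb).symm
        · rcases Finset.mem_insert.1 hb with rfl | hb
          · exact hdis a ha
          · exact h𝒢 a ha b hb hab
      · intro s hs j hj
        rcases Finset.mem_insert.1 hs with rfl | hs
        · exact ⟨_, List.mem_cons_self, hj⟩
        · exact hsub' s hs j hj
      · have e1 : (Gate.toffoli S t).apply ψ
            = (frameOf q hq (1 - 2 * vac (insert t S))).mulVec ψ := by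
          funext σ
          rw [frameOf_refl]
          have : (fun i => if i ∈ insert t S then 1 - q i else 1)
              = fun j => if j ∈ S then e1 else if j = t then em else 1 := by
            funext j
            by_cases h1 : j ∈ S
            · simp [q, h1]
            · by_cases h2 : j = t
              · subst h2; simp [q, h1]
              · simp [h1, h2]
          rw [this, toffoli_mulVec S t ht]
          simp only [Gate.apply]
          congr
        have e2 : frameOf p hp (sgn 𝒢) = frameOf q hq (sgn 𝒢) := by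
          refine frameOf_sgn_congr hp hq 𝒢 fun s hs j hj => ?_
          have := hout s hs j hj
          simp only [Gate.support, Finset.mem_insert, not_or] at this
          simp [q, this.1, this.2]
        show applyLayer L ((Gate.toffoli S t).apply ψ) = _
        rw [hψ, e1, Matrix.mulVec_mulVec, mul_assoc, e2, ← map_mul, sgn_insert hnot,
          mul_comm (sgn 𝒢)]

theorem circuit_decomp {N : ℕ} (C : List (List (Gate N))) (hC : CircuitWF C) :
    ∃ c : List (unitary (Mat (Fin N))), c.length ≤ 2 * C.length ∧
      (∀ u ∈ c, IsLayer (frames (Fin N)) u) ∧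
      ∀ ψ : QState N, runCircuit C ψ = ((c.prod : unitary (Mat (Fin N))) : Mat (Fin N)).mulVec ψ := by
  induction C with
  | nil => exact ⟨[], by simp, by simp, fun ψ => by simp [runCircuit]⟩
  | cons L C ih =>
    obtain ⟨c, hc1, hc2, hc3⟩ := ih fun L' hL' => hC L' (List.mem_cons_of_mem _ hL')
    obtain ⟨V, p, hp, 𝒢, hV, h𝒢, -, hψ⟩ := layer_decomp L (hC L List.mem_cons_self)
    refine ⟨c ++ [⟨tens V, tens_mem hV⟩, ⟨frameOf p hp (sgn 𝒢), frame_sgn_mem _ _⟩], ?_, ?_,
      fun ψ => ?_⟩
    · simp only [List.length_append, List.length_cons, List.length_nil]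
      omega
    · intro u hu
      simp only [List.mem_append, List.mem_cons, List.not_mem_nil, or_false] at hu
      rcases hu with hu | rfl | rfl
      · exact hc2 u hu
      · exact isLayer_tens hV
      · exact Or.inr ⟨_, frameOf_mem p hp, 𝒢, h𝒢, rfl⟩
    · show runCircuit C (applyLayer L ψ) = _
      rw [hc3, hψ, Matrix.mulVec_mulVec]
      simp

end Crest.Agent.R344
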