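import Crest.Agent.R344.Step

/-!
# Row 344: induction on the depth

Recipes.
* `dep_commute`: first show, by induction on the finset `B`, that a predicate `P` on `Fn ι` closed
  under constants (`algebraMap`), `+`, `*`, `-` and true for `coord k`, `k ∈ B`, holds for every
  `f` with `DepOn B f` (write `f = coord k * f₁ + (1 - coord k) * f₀`,
  `f_b z = f (Function.update z k b)`).  Use it twice.
* `bandAll_zero`: `c = []`.  For `x = 0` the bound is `1`.  For `x ≥ 1`: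
  `ge S (a + |T| + x) = ge S _ * ge (S \ T) (a + 1)`, `ge (S \ T) (a+1)` depends on `S \ T` only, so
  it commutes with `Φ (mono T)`, and `ge (S \ T) (a+1) * le S a = 0`.
* `bandAll_succ`: `c = []` or `c = c' ++ [u]` (`List.eq_nil_or_concat`),
  `conj (c'.prod * u) Φ = conj c'.prod (conj u Φ)`.  Local layer: immediate.  Reflection layer
  `u = W (sgn 𝒢)`: let `𝒢₁ = 𝒢.filter (¬ Disjoint g T)`, `|𝒢₁| ≤ |T| = D` (disjointness),
  `sgn 𝒢 = sgn 𝒢₁ * sgn 𝒢₂`, `sgn 𝒢₂` depends only on `Tᶜ`, takes values `±1`, so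
  `u * Φ (mono T) * star u = W (sgn 𝒢₁) * Φ (mono T) * W (sgn 𝒢₁)`.  With `W' = conj c'.prod W`:
  `sgn 𝒢₁ = ∑ s ∈ 𝒢₁.powerset, (-2)^|s| • vac (s.sup id)` (`Finset.prod_one_add`/`prod_add`),
  so `rh_general` (with `Y = L a + x'`) gives
  `‖Ψ (ge S (2 κ L (a + x'))) * W' (sgn 𝒢₁) * Ψ (le S a)‖ ≤ 3^D 2^(-x')` (alternatively by
  induction on `𝒢₁`, generalising an extra factor `vac A`), and `‖W' (sgn 𝒢₁)‖ ≤ 1`.
  Chain three banded contractions (`X * Ψ(le a) = Ψ(le a₁) X Ψ(le a) + Ψ(ge (a₁+1)) X Ψ(le a)`)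
  with `x' = x + 2D + 2`, `w = a + D + x ≥ 1` (if `x = 0` the bound is `1`), `κ* = 2κL`:
  `a₁ = κ*(a + x') ≤ 4κ* w`, `a₂ = K (a₁ + D + x') ≤ 9 K κ* w`, `a₃ = κ*(a₂ + x') ≤ 13 K κ*² w`;
  total error `(2·3^D + 1) 2^(-x') ≤ 2^(-x)`.
* `rh_all`: `rh_of_band` with `Band (conj U Φ) Ψ K` and `Band Ψ (conj U Φ) K`; the latter is
  `Band (conj (star U) Ψ) Φ K` after conjugating by the unitary (norms are invariant), and
  `star c.prod = (c.map star).reverse.prod`, whose entries are again layers (`sgn` is real).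
* `bandAll_bound`: induction on `t`, for all `c`.  WLOG `c ≥ 1`.  Put `k = 4c`, `h = 2 + 11k`, get
  `e` from the induction hypothesis at `k * h`, take `e' = 4 h e` (so `c e' = k h e`), `B = b^(h e)`,
  `L = b`: `9072 K² L^8 ≤ b^(2e+9)`, `κ ≤ b^((2e+9)k + h e)`, `52 K L² κ² ≤ b^(e + 3 + 2((2e+9)k + h e))`
  and `e + 3 + 2(2e+9)k ≤ 2 h e`.
-/

set_option autoImplicit false
set_option linter.unusedSectionVars false

namespace Crest.Agent.R344

open Finset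

section
variable {ι : Type} [Fintype ι] [DecidableEq ι] {𝒜 : Type} [CStarAlgebra 𝒜]

lemma peel_mem (A : Subalgebra ℂ (Fn ι)) (B : Finset ι) (hk : ∀ k ∈ B, coord k ∈ A) :
    ∀ f : Fn ι, DepOn B f → f ∈ A := by
  induction B using Finset.induction_on with
  | empty =>
    intro f hf
    have h : f = algebraMap ℂ (Fn ι) (f fun _ => false) := by
      funext z
      exact hf z _ (by simp)
    rw [h]
    exact A.algebraMap_mem _
  | insert k B _ ih =>
    intro f hf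
    have hb : ∀ b : Bool, (fun z => f (Function.update z k b)) ∈ A := by
      intro b
      refine ih (fun j hj => hk j (mem_insert_of_mem hj)) _ fun z z' hz => hf _ _ fun i hi => ?_
      by_cases hik : i = k
      · subst hik; simp
      · rw [Function.update_of_ne hik, Function.update_of_ne hik]
        exact hz i ((mem_insert.1 hi).resolve_left hik)
    have hc := hk k (mem_insert_self _ _)
    have h : f = coord k * (fun z => f (Function.update z k true)) +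
        (1 - coord k) * (fun z => f (Function.update z k false)) := by
      funext z
      simp only [coord, Pi.add_apply, Pi.mul_apply, Pi.sub_apply, Pi.one_apply]
      cases hz : z k
      · rw [← hz, Function.update_eq_self]; simp [hz]
      · rw [← hz, Function.update_eq_self]; simp [hz]
    rw [h]
    exact A.add_mem (A.mul_mem hc (hb true)) (A.mul_mem (A.sub_mem A.one_mem hc) (hb false))

lemma peel_commute (Φ : Frame ι 𝒜) (y : 𝒜) {B : Finset ι}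
    (hk : ∀ k ∈ B, Commute y (Φ (coord k))) {f : Fn ι} (hf : DepOn B f) : Commute y (Φ f) := by
  have h := peel_mem ((Subalgebra.centralizer ℂ {y}).comap Φ.toAlgHom) B
    (fun k hk' => by
      rw [Subalgebra.mem_comap, Subalgebra.mem_centralizer_iff]
      rintro _ rfl
      exact (hk k hk').eq) f hf
  rw [Subalgebra.mem_comap, Subalgebra.mem_centralizer_iff] at h
  exact h y rfl

lemma peel_norm_one (Ψ : Frame ι 𝒜) (S : Finset ι) (M a : ℕ) {X : 𝒜} (hX : ‖X‖ ≤ 1) :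
    ‖Ψ (ge S M) * X * Ψ (le S a)‖ ≤ 1 :=
  (norm_mul_le _ _).trans (mul_le_one₀ ((norm_mul_le _ _).trans
    (mul_le_one₀ (norm_ge_le _ _ _) (norm_nonneg _) hX)) (norm_nonneg _) (norm_le_le _ _ _))

lemma peel_conj_one (Φ : Frame ι 𝒜) : conj 1 Φ = Φ := by
  ext f; simp

lemma peel_conj_mul (u v : unitary 𝒜) (Φ : Frame ι 𝒜) : conj (u * v) Φ = conj u (conj v Φ) := by
  ext f; simp [mul_assoc]

lemma peel_chain (Ψ : Frame ι 𝒜) (S : Finset ι) (M a b : ℕ) {X Y : 𝒜} (hX : ‖X‖ ≤ 1)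
    (hY : ‖Y‖ ≤ 1) : ‖Ψ (ge S M) * (X * Y) * Ψ (le S a)‖ ≤
      ‖Ψ (ge S M) * X * Ψ (le S b)‖ + ‖Ψ (ge S b) * Y * Ψ (le S a)‖ := by
  have h1 : Ψ (le S b) + Ψ (ge S (b + 1)) = 1 := by
    rw [← map_add, ← map_one Ψ]
    congr 1
    funext z
    simp only [le, ge, Pi.add_apply, Pi.one_apply]
    split_ifs with h1 h2 h2
    · omega
    · simp
    · simp
    · omega
  have h2 : Ψ (ge S M) * (X * Y) * Ψ (le S a) =
      Ψ (ge S M) * X * Ψ (le S b) * (Y * Ψ (le S a)) +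
        Ψ (ge S M) * X * (Ψ (ge S (b + 1)) * (Y * Ψ (le S a))) := by
    rw [mul_assoc (Ψ (ge S M) * X), ← mul_add, ← add_mul, h1, one_mul]
    simp only [mul_assoc]
  rw [h2]
  refine (norm_add_le _ _).trans (add_le_add ?_ ?_)
  · refine (norm_mul_le _ _).trans (mul_le_of_le_one_right (norm_nonneg _) ?_)
    exact (norm_mul_le _ _).trans (mul_le_one₀ hY (norm_nonneg _) (norm_le_le _ _ _))
  · refine (norm_mul_le _ _).trans ((mul_le_of_le_one_left (norm_nonneg _) ?_).trans ?_)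
    · exact (norm_mul_le _ _).trans (mul_le_one₀ (norm_ge_le _ _ _) (norm_nonneg _) hX)
    · rw [mul_assoc]
      exact norm_ge_mono Ψ S (Nat.le_succ b) _

lemma peel_vac_mul (g A : Finset ι) : vac g * vac A = vac (g ∪ A) := by
  funext z
  simp only [vac, Pi.mul_apply, forall_mem_union, ite_and]
  split_ifs <;> simp

lemma peel_vac_empty : vac (∅ : Finset ι) = 1 := by
  funext z; simp [vac]

lemma peel_sgn_le (ν : Seminorm ℂ (Fn ι)) {η : ℝ} (h : ∀ A, ν (vac A) ≤ η)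
    (𝒢 : Finset (Finset ι)) : ∀ A, ν (sgn 𝒢 * vac A) ≤ 3 ^ 𝒢.card * η := by
  induction 𝒢 using Finset.induction_on with
  | empty => intro A; simpa [sgn] using h A
  | insert g 𝒢 hg ih =>
    intro A
    have h1 : sgn (insert g 𝒢) * vac A = sgn 𝒢 * vac A - (2 : ℂ) • (sgn 𝒢 * vac (g ∪ A)) := by
      rw [sgn, prod_insert hg, ← peel_vac_mul, two_smul]
      change (1 - 2 * vac g) * sgn 𝒢 * vac A = _
      ring
    rw [h1, card_insert_of_notMem hg, pow_succ]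
    refine (map_sub_le_add ν _ _).trans ?_
    rw [map_smul_eq_mul, Complex.norm_ofNat]
    linarith [ih A, ih (g ∪ A)]

lemma peel_sgn_apply (𝒢 : Finset (Finset ι)) (z : ι → Bool) : sgn 𝒢 z = 1 ∨ sgn 𝒢 z = -1 := by
  induction 𝒢 using Finset.induction_on with
  | empty => left; simp [sgn]
  | insert g 𝒢 hg ih =>
    have h1 : sgn (insert g 𝒢) z = (1 - 2 * vac g z) * sgn 𝒢 z := by
      rw [sgn, prod_insert hg]; rfl
    rw [h1, vac]
    split_ifs <;> rcases ih with h | h <;> rw [h] <;> norm_num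

lemma peel_sgn_sq (𝒢 : Finset (Finset ι)) : sgn 𝒢 * sgn 𝒢 = 1 := by
  funext z
  rcases peel_sgn_apply 𝒢 z with h | h <;> simp [h]

lemma peel_star_sgn (𝒢 : Finset (Finset ι)) : star (sgn 𝒢) = sgn 𝒢 := by
  funext z
  rcases peel_sgn_apply 𝒢 z with h | h <;> simp [h]

lemma peel_norm_sgn (W : Frame ι 𝒜) (𝒢 : Finset (Finset ι)) : ‖W (sgn 𝒢)‖ ≤ 1 :=
  norm_frame_le W _ zero_le_one fun z => by
    rcases peel_sgn_apply 𝒢 z with h | h <;> simp [h]

lemma peel_depOn_sgn {𝒢 : Finset (Finset ι)} {B : Finset ι} (h : ∀ g ∈ 𝒢, g ⊆ B) :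
    DepOn B (sgn 𝒢) := by
  intro z z' hz
  simp only [sgn, Finset.prod_apply, Pi.sub_apply, Pi.mul_apply]
  refine prod_congr rfl fun g hg => ?_
  have h1 : vac g z = vac g z' := by
    simp only [vac]
    rw [if_congr (forall₂_congr fun i hi => by rw [hz i (h g hg hi)]) rfl rfl]
  rw [h1]
  rfl

lemma peel_depOn_mono (T : Finset ι) : DepOn T (mono T) := by
  intro z z' hz
  simp only [mono]
  rw [if_congr (forall₂_congr fun i hi => by rw [hz i hi]) rfl rfl]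

lemma peel_depOn_ge (S : Finset ι) (M : ℕ) : DepOn S (ge S M) := by
  intro z z' hz
  have h : cnt S z = cnt S z' := by
    unfold cnt
    rw [filter_congr fun i hi => by rw [hz i hi]]
  simp only [ge, h]

lemma peel_refl {W Ψ : Frame ι 𝒜} {L κ : ℕ} (hL : 8 * (Fintype.card ι + 1) ≤ 2 ^ L) (hκ : 1 ≤ κ)
    (h : RH W Ψ κ) (𝒢 : Finset (Finset ι)) (S : Finset ι) (a x : ℕ) :
    ‖Ψ (ge S (2 * κ * L * (a + x))) * W (sgn 𝒢) * Ψ (le S a)‖ ≤ 3 ^ 𝒢.card * (1 / 2 : ℝ) ^ x := by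
  have hL1 : 1 ≤ L := by
    rcases Nat.eq_zero_or_pos L with rfl | h0
    · omega
    · exact h0
  have h1 := peel_sgn_le (sandwich (Ψ (ge S (2 * κ * L * (a + x)))) W (Ψ (le S a)))
    (η := (1 / 2 : ℝ) ^ x) (fun A => ?_) 𝒢 ∅
  · rwa [peel_vac_empty, mul_one, sandwich_apply] at h1
  have h2 := rh_general hL (h A (L * a + x)) S a
  rw [pow_add, ← mul_assoc, ← mul_pow, mul_one_div_cancel two_ne_zero, one_pow, one_mul] at h2
  rw [sandwich_apply]
  refine le_trans ?_ h2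
  rw [mul_assoc (Ψ _), mul_assoc (Ψ _)]
  refine norm_ge_mono Ψ S ?_ _
  have h3 : a ≤ κ * L * a := Nat.le_mul_of_pos_left _ (Nat.mul_pos hκ hL1)
  have h4 : κ * x ≤ κ * L * x := Nat.mul_le_mul_right _ (Nat.le_mul_of_pos_right _ hL1)
  nlinarith

theorem dep_commute {𝓕 : Set (Frame ι 𝒜)} (h𝓕 : FrameComm 𝓕) {Φ Ψ : Frame ι 𝒜} (hΦ : Φ ∈ 𝓕)
    (hΨ : Ψ ∈ 𝓕) {B B' : Finset ι} (hBB : Disjoint B B') {f g : Fn ι} (hf : DepOn B f)
    (hg : DepOn B' g) : Commute (Φ f) (Ψ g) := by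
  refine (peel_commute Φ _ (fun k hk => ?_) hf).symm
  refine (peel_commute Ψ _ (fun j hj => ?_) hg).symm
  exact h𝓕 Φ hΦ Ψ hΨ k j (fun h => disjoint_left.1 hBB hk (h ▸ hj))

theorem bandAll_zero {𝓕 : Set (Frame ι 𝒜)} (h𝓕 : FrameComm 𝓕) : BandAll 𝓕 0 1 := by
  intro c hc _ Φ hΦ Ψ hΨ T S a x
  obtain rfl : c = [] := List.eq_nil_of_length_eq_zero (by omega)
  rw [List.prod_nil, peel_conj_one]
  rcases Nat.eq_zero_or_pos x with rfl | hx
  · exact peel_norm_one Ψ S _ a (norm_mono_le Φ T)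
  have h1 : ge S (1 * (a + T.card + x)) = ge S (1 * (a + T.card + x)) * ge (S \ T) (a + 1) := by
    funext z
    have h : cnt S z ≤ cnt (S \ T) z + T.card := by
      refine le_trans (card_le_card fun i hi => ?_) (card_union_le _ T)
      rw [mem_union, mem_filter, mem_sdiff]
      rw [mem_filter] at hi
      tauto
    simp only [ge, Pi.mul_apply]
    split_ifs with h1 h2
    · simp
    · omega
    · simp
    · simp
  have h2 : ge (S \ T) (a + 1) * le S a = 0 := by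
    funext z
    have h : cnt (S \ T) z ≤ cnt S z := card_le_card (filter_subset_filter _ sdiff_subset)
    simp only [ge, le, Pi.mul_apply, Pi.zero_apply]
    split_ifs with h1 h2
    · omega
    · simp
    · simp
    · simp
  have h3 := dep_commute h𝓕 hΨ hΦ sdiff_disjoint (peel_depOn_ge (S \ T) (a + 1))
    (peel_depOn_mono T)
  rw [h1, map_mul, mul_assoc (Ψ _), h3.eq, mul_assoc, mul_assoc, ← map_mul Ψ, h2, map_zero,
    mul_zero, mul_zero, norm_zero]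
  positivity

theorem bandAll_succ {𝓕 : Set (Frame ι 𝒜)} (h𝓕 : FrameComm 𝓕) {L t K κ : ℕ}
    (hL : 8 * (Fintype.card ι + 1) ≤ 2 ^ L) (hK : 1 ≤ K) (hκ : 1 ≤ κ) (hB : BandAll 𝓕 t K)
    (hR : ∀ c : List (unitary 𝒜), c.length ≤ t → (∀ u ∈ c, IsLayer 𝓕 u) →
      ∀ Φ ∈ 𝓕, ∀ Ψ ∈ 𝓕, RH (conj c.prod Φ) Ψ κ) :
    BandAll 𝓕 (t + 1) (52 * K * L ^ 2 * κ ^ 2) := by
  have hL1 : 1 ≤ L := by
    rcases Nat.eq_zero_or_pos L with rfl | h0
    · omega
    · exact h0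
  have hKK : K ≤ 52 * K * L ^ 2 * κ ^ 2 := by
    have h1 : 0 < 52 * L ^ 2 * κ ^ 2 := by positivity
    calc K ≤ K * (52 * L ^ 2 * κ ^ 2) := Nat.le_mul_of_pos_right _ h1
      _ = _ := by ring
  intro c hc hl Φ hΦ Ψ hΨ
  rcases List.eq_nil_or_concat c with rfl | ⟨c', u, rfl⟩
  · exact (hB [] (Nat.zero_le _) hl Φ hΦ Ψ hΨ).mono hKK
  rw [List.concat_eq_append] at hc hl ⊢
  have hc' : c'.length ≤ t := by
    rw [List.length_append, List.length_singleton] at hc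
    omega
  have hl' : ∀ v ∈ c', IsLayer 𝓕 v := fun v hv => hl v (List.mem_append_left _ hv)
  rw [List.prod_append, List.prod_singleton, peel_conj_mul]
  rcases hl u (by simp) with hu | ⟨W, hW, 𝒢, h𝒢, hu⟩
  · exact (hB c' hc' hl' _ (hu Φ hΦ).1 Ψ hΨ).mono hKK
  intro T S a x
  rcases Nat.eq_zero_or_pos x with rfl | hx
  · exact peel_norm_one Ψ S _ a (norm_mono_le _ T)
  set 𝒢₁ := 𝒢.filter (fun g => ¬ Disjoint g T) with h𝒢₁
  set 𝒢₂ := 𝒢.filter (fun g => ¬ ¬ Disjoint g T) with h𝒢₂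
  have hcard : 𝒢₁.card ≤ T.card := by
    refine le_trans (card_le_card_biUnion (f := fun g => g ∩ T) ?_ ?_) (card_le_card ?_)
    · intro g hg g' hg' hne
      exact (h𝒢 g (mem_filter.1 hg).1 g' (mem_filter.1 hg').1 hne).mono inter_subset_left
        inter_subset_left
    · intro g hg
      exact not_disjoint_iff_nonempty_inter.1 (mem_filter.1 hg).2
    · exact biUnion_subset.2 fun g _ => inter_subset_right
  have hsplit : sgn 𝒢 = sgn 𝒢₁ * sgn 𝒢₂ := (prod_filter_mul_prod_filter_not 𝒢 _ _).symm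
  have hcomm : Commute (W (sgn 𝒢₂)) (Φ (mono T)) :=
    dep_commute h𝓕 hW hΦ (B := Tᶜ) disjoint_compl_left (peel_depOn_sgn fun g hg i hi =>
      mem_compl.2 (disjoint_left.1 (not_not.1 (mem_filter.1 hg).2) hi)) (peel_depOn_mono T)
  have h1 : conj u Φ (mono T) = W (sgn 𝒢₁) * (Φ (mono T) * W (sgn 𝒢₁)) := by
    rw [conj_apply, hu, ← map_star, peel_star_sgn]
    nth_rewrite 1 [hsplit]
    rw [map_mul, mul_assoc (W _), hcomm.eq, mul_assoc, mul_assoc, ← map_mul W, hsplit,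
      mul_comm (sgn 𝒢₁), ← mul_assoc (sgn 𝒢₂), peel_sgn_sq, one_mul]
  have h2 : conj c'.prod (conj u Φ) (mono T) = conj c'.prod W (sgn 𝒢₁) *
      (conj c'.prod Φ (mono T) * conj c'.prod W (sgn 𝒢₁)) := by
    change Unitary.conjStarAlgAut ℂ 𝒜 c'.prod (conj u Φ (mono T)) = _
    rw [h1, map_mul, map_mul]
    rfl
  have hRW := hR c' hc' hl' W hW Ψ hΨ
  have hn1 := peel_norm_sgn (conj c'.prod W) 𝒢₁
  have hn2 := norm_mono_le (conj c'.prod Φ) T
  set D := T.card with hD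
  set x' := x + 2 * D + 2 with hx'
  set a₁ := 2 * κ * L * (a + x') with ha₁
  set a₂ := K * (a₁ + D + x') with ha₂
  have hM : 2 * κ * L * (a₂ + x') ≤ 52 * K * L ^ 2 * κ ^ 2 * (a + D + x) := by
    set w := a + D + x with hw
    set k := 2 * κ * L with hk
    have hk1 : 1 ≤ k := Nat.mul_pos (Nat.mul_pos two_pos hκ) hL1
    have e1 : a₁ ≤ k * (4 * w) := Nat.mul_le_mul_left _ (by omega)
    have e2 : D + x' ≤ k * (5 * w) := le_trans (by omega) (Nat.le_mul_of_pos_left _ hk1)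
    have e3 : a₂ ≤ K * (k * (9 * w)) := Nat.mul_le_mul_left _ (by nlinarith)
    have e4 : x' ≤ K * (k * (4 * w)) :=
      le_trans (le_trans (by omega) (Nat.le_mul_of_pos_left _ hk1)) (Nat.le_mul_of_pos_left _ hK)
    calc k * (a₂ + x') ≤ k * (K * (k * (9 * w)) + K * (k * (4 * w))) :=
          Nat.mul_le_mul_left _ (Nat.add_le_add e3 e4)
      _ = _ := by rw [hk]; ring
  have b1 := peel_refl hL hκ hRW 𝒢₁ S a x'
  have b2 := hB c' hc' hl' Φ hΦ Ψ hΨ T S a₁ x'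
  have b3 := peel_refl hL hκ hRW 𝒢₁ S a₂ x'
  have b4 := peel_chain Ψ S a₂ a a₁ hn2 hn1
  have b5 := peel_chain Ψ S (2 * κ * L * (a₂ + x')) a a₂ hn1
    ((norm_mul_le _ _).trans (mul_le_one₀ hn2 (norm_nonneg _) hn1))
  have b6 : (3 : ℝ) ^ 𝒢₁.card ≤ 4 ^ D :=
    (pow_le_pow_right₀ (by norm_num) hcard).trans (pow_le_pow_left₀ (by norm_num) (by norm_num) _)
  have b7 : (4 : ℝ) ^ D * (1 / 2) ^ x' = (1 / 2) ^ x / 4 := by
    rw [hx', pow_add, pow_add, pow_mul, mul_comm, mul_right_comm, mul_assoc _ _ ((4 : ℝ) ^ D),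
      ← mul_pow]
    norm_num
    ring
  have b8 : (0 : ℝ) < (1 / 2) ^ x' := by positivity
  have b9 : (3 : ℝ) ^ 𝒢₁.card * (1 / 2) ^ x' ≤ 4 ^ D * (1 / 2) ^ x' := by gcongr
  have b10 : (1 : ℝ) * (1 / 2) ^ x' ≤ 4 ^ D * (1 / 2) ^ x' := by
    gcongr
    exact one_le_pow₀ (by norm_num)
  have b11 : (0 : ℝ) < (1 / 2) ^ x := by positivity
  rw [h2, mul_assoc]
  refine (norm_ge_mono Ψ S hM _).trans ?_
  rw [← mul_assoc]
  linarith

theorem rh_all {𝓕 : Set (Frame ι 𝒜)} {L t K B k : ℕ}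
    (hL : 8 * (Fintype.card ι + 1) ≤ 2 ^ L) (hK : 1 ≤ K) (hB : BandAll 𝓕 t K) (hB2 : 2 ≤ B)
    (hk : Fintype.card ι + 1 ≤ B ^ k) (c : List (unitary 𝒜)) (hc : c.length ≤ t)
    (hl : ∀ u ∈ c, IsLayer 𝓕 u) {Φ Ψ : Frame ι 𝒜} (hΦ : Φ ∈ 𝓕) (hΨ : Ψ ∈ 𝓕) :
    RH (conj c.prod Φ) Ψ ((9072 * K ^ 2 * L ^ 8) ^ k * B) := by
  refine rh_of_band hL (hB c hc hl Φ hΦ Ψ hΨ) ?_ hK hB2 hk
  have h1 := hB (c.map fun u => u⁻¹).reverse (by simpa using hc) (fun u hu => ?_) Ψ hΨ Φ hΦ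
  · rw [← List.prod_inv_reverse] at h1
    intro T S a x
    refine le_trans (le_of_eq ?_) (h1 T S a x)
    simp only [conj_apply, ← Unitary.star_eq_inv, Unitary.coe_star, star_star]
    symm
    rw [← CStarRing.norm_coe_unitary_mul c.prod, ← CStarRing.norm_mul_coe_unitary _ (star c.prod)]
    simp only [Unitary.coe_star, mul_assoc]
  · obtain ⟨v, hv, rfl⟩ := List.mem_map.1 (List.mem_reverse.1 hu)
    rw [← Unitary.star_eq_inv]
    rcases hl v hv with h | ⟨W, hW, 𝒢, h𝒢, h⟩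
    · exact Or.inl fun Φ hΦ => ⟨(h Φ hΦ).2, by rw [star_star]; exact (h Φ hΦ).1⟩
    · exact Or.inr ⟨W, hW, 𝒢, h𝒢, by rw [Unitary.coe_star, h, ← map_star, peel_star_sgn]⟩

end

/-- Depth-`t` circuits on `N ≤ b^(c e)` wires are banded with constant `b^e`. -/
theorem bandAll_bound (t c : ℕ) : ∃ e : ℕ, 1 ≤ e ∧ ∀ b : ℕ, 10000 ≤ b →
    ∀ (ι : Type) [Fintype ι] [DecidableEq ι] (𝒜 : Type) [CStarAlgebra 𝒜]
      (𝓕 : Set (Frame ι 𝒜)), FrameComm 𝓕 → 8 * (Fintype.card ι + 1) ≤ 2 ^ b →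
      Fintype.card ι + 1 ≤ b ^ (c * e) → BandAll 𝓕 t (b ^ e) := by
  induction t generalizing c with
  | zero =>
    refine ⟨1, le_rfl, fun b hb ι _ _ 𝒜 _ 𝓕 h𝓕 _ _ => (bandAll_zero h𝓕).mono ?_⟩
    rw [pow_one]
    omega
  | succ t ih =>
    obtain ⟨k, hk⟩ : ∃ k, k = 4 * (c + 1) := ⟨_, rfl⟩
    obtain ⟨h, hh⟩ : ∃ h, h = 2 + 11 * k := ⟨_, rfl⟩
    obtain ⟨e, he, ih⟩ := ih (k * h)
    have hhe : 1 ≤ h * e := Nat.mul_pos (by omega) he
    refine ⟨4 * h * e, by nlinarith, fun b hb ι _ _ 𝒜 _ 𝓕 h𝓕 hL hN => ?_⟩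
    have hb1 : 1 ≤ b := by omega
    have hN' : Fintype.card ι + 1 ≤ b ^ (k * h * e) :=
      hN.trans (Nat.pow_le_pow_right hb1 (by rw [hk]; nlinarith))
    have hK : 1 ≤ b ^ e := Nat.one_le_pow _ _ hb1
    have h1 := ih b hb ι 𝒜 𝓕 h𝓕 hL hN'
    have hB2 : 2 ≤ b ^ (h * e) :=
      le_trans (by omega) (Nat.le_self_pow (by omega) b)
    have hNk : Fintype.card ι + 1 ≤ (b ^ (h * e)) ^ k := by
      rw [← pow_mul, show h * e * k = k * h * e by ring]
      exact hN'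
    have hκ : (9072 * (b ^ e) ^ 2 * b ^ 8) ^ k * b ^ (h * e) ≤ b ^ ((2 * e + 9) * k + h * e) := by
      rw [pow_add, pow_mul b (2 * e + 9)]
      refine Nat.mul_le_mul_right _ (Nat.pow_le_pow_left ?_ k)
      calc 9072 * (b ^ e) ^ 2 * b ^ 8 ≤ b * (b ^ e) ^ 2 * b ^ 8 := by gcongr; omega
        _ = _ := by ring
    refine (bandAll_succ h𝓕 hL hK (Nat.one_le_pow ((2 * e + 9) * k + h * e) _ hb1) h1
      (fun c' hc' hl Φ hΦ Ψ hΨ => (rh_all hL hK h1 hB2 hNk c' hc' hl hΦ hΨ).mono hκ)).mono ?_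
    calc 52 * b ^ e * b ^ 2 * (b ^ ((2 * e + 9) * k + h * e)) ^ 2
        ≤ b * b ^ e * b ^ 2 * (b ^ ((2 * e + 9) * k + h * e)) ^ 2 := by gcongr; omega
      _ = b ^ (e + 3 + 2 * ((2 * e + 9) * k + h * e)) := by ring
      _ ≤ _ := by
          refine Nat.pow_le_pow_right hb1 ?_
          have h2 : k ≤ k * e := Nat.le_mul_of_pos_right _ he
          rw [hh]
          nlinarith

end Crest.Agent.R344
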