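import Crest.Agent.R344.Parity
import Crest.Agent.R344.Peel
import Crest.Agent.R344.Layer

/-!
# Row 344: assembling the proof
-/

set_option autoImplicit false
set_option linter.unusedSectionVars false

namespace Crest.Agent.R344

open Finset Matrix Crest.Quantum.Circuit
open scoped Matrix.Norms.L2Operator

lemma star_sgn_final {ι : Type} [Fintype ι] [DecidableEq ι] (𝒢 : Finset (Finset ι)) :
    star (sgn 𝒢) = sgn 𝒢 := by
  unfold sgn
  rw [star_prod]
  refine Finset.prod_congr rfl fun g _ => ?_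
  funext z
  simp only [vac, Pi.star_apply, Pi.sub_apply, Pi.mul_apply, Pi.ofNat_apply]
  split_ifs <;> simp

lemma isLayer_star_final {ι : Type} [Fintype ι] [DecidableEq ι] {𝒜 : Type} [CStarAlgebra 𝒜]
    {𝓕 : Set (Frame ι 𝒜)} {u : unitary 𝒜} (h : IsLayer 𝓕 u) : IsLayer 𝓕 (star u) := by
  rcases h with h | ⟨W, hW, 𝒢, h𝒢, hu⟩
  · left
    intro Φ hΦ
    rw [star_star]
    exact ⟨(h Φ hΦ).2, (h Φ hΦ).1⟩
  · right
    refine ⟨W, hW, 𝒢, h𝒢, ?_⟩
    rw [Unitary.coe_star, hu, ← map_star, star_sgn_final]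

lemma star_list_prod {M : Type} [Monoid M] [StarMul M] (c : List M) :
    ((c.map star).reverse).prod = star c.prod := by
  induction c with
  | nil => simp
  | cons u c ih => simp [ih, List.prod_append]

/-- The computational frame. -/
noncomputable def stdFrame (ι : Type) [Fintype ι] [DecidableEq ι] : Frame ι (Mat ι) :=
  frameOf (fun _ => tp False false) fun _ => tp_proj _ _

lemma stdFrame_mono {ι : Type} [Fintype ι] [DecidableEq ι] (o : ι) :
    stdFrame ι (mono {o}) = Matrix.diagonal fun σ => if σ o = true then 1 else 0 := by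
  have : (mono {o} : Fn ι) = coord o := by funext z; simp [mono, coord]
  rw [this, stdFrame, frameOf_coord]
  ext σ τ
  rw [tens_apply, Matrix.diagonal_apply]
  split_ifs with h1 h2
  · subst h1
    refine Finset.prod_eq_one fun i _ => ?_
    split_ifs with hi
    · subst hi; simp [tp, h2]
    · simp
  · subst h1
    exact Finset.prod_eq_zero (Finset.mem_univ o) (by simp [tp, h2])
  · obtain ⟨i, hi⟩ := Function.ne_iff.1 h1
    refine Finset.prod_eq_zero (Finset.mem_univ i) ?_
    split_ifs with hio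
    · cases h3 : σ i <;> cases h4 : τ i <;> simp_all [tp]
    · exact Matrix.one_apply_ne hi

lemma mulVec_basisState {N : ℕ} (U : Mat (Fin N)) (τ σ : Fin N → Bool) :
    (U *ᵥ basisState τ) σ = U σ τ := by
  simp [Matrix.mulVec, dotProduct, basisState]

lemma outcome_true {N : ℕ} (U : Mat (Fin N)) (o : Fin N) (τ : Fin N → Bool) :
    outcomeProb o true (U *ᵥ basisState τ) =
      ((star U * stdFrame (Fin N) (mono {o}) * U) τ τ).re := by
  rw [stdFrame_mono, Matrix.mul_apply, Complex.re_sum, outcomeProb]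
  refine Finset.sum_congr rfl fun σ _ => ?_
  rw [mulVec_basisState, Matrix.mul_diagonal, Matrix.star_apply]
  split_ifs
  · rw [mul_one, Complex.star_def, Complex.conj_mul', ← Complex.ofReal_pow, Complex.ofReal_re]
  · simp

lemma outcome_false {N : ℕ} (U : unitary (Mat (Fin N))) (o : Fin N) (τ : Fin N → Bool) :
    outcomeProb o false ((U : Mat (Fin N)) *ᵥ basisState τ) =
      1 - outcomeProb o true ((U : Mat (Fin N)) *ᵥ basisState τ) := by
  have h1 : ((star (U : Mat (Fin N)) * U) τ τ).re = 1 := by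
    rw [Unitary.star_mul_self_of_mem U.2]; simp
  rw [Matrix.mul_apply, Complex.re_sum] at h1
  rw [eq_sub_iff_add_eq, ← h1, outcomeProb, outcomeProb, ← Finset.sum_add_distrib]
  refine Finset.sum_congr rfl fun σ _ => ?_
  rw [mulVec_basisState, Matrix.star_apply, Complex.star_def, Complex.conj_mul',
    ← Complex.ofReal_pow, Complex.ofReal_re]
  cases σ o <;> simp

/-- The input wires. -/
def inputs (n N : ℕ) : Finset (Fin N) := Finset.univ.filter fun i => (i : ℕ) < n

lemma card_inputs {n N : ℕ} (h : n ≤ N) : (inputs n N).card = n := by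
  rw [inputs, Fin.card_filter_val_lt]; omega

lemma wt_input {n N : ℕ} (h : n ≤ N) (x : Fin n → Bool) :
    wt (inputs n N) (inputString n x) = if parity x = true then -1 else 1 := by
  have e1 : wt (inputs n N) (inputString n x) =
      ∏ i : Fin N, if inputString n x i = true then (-1 : ℝ) else 1 := by
    refine Finset.prod_congr rfl fun i _ => ?_
    by_cases hi : (i : ℕ) < n
    · simp [inputs, hi, sg]
    · simp [inputs, hi, inputString]
  have e2 : (Finset.univ.filter fun i : Fin N => inputString n x i = true).card =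
      (Finset.univ.filter fun i => x i = true).card := by
    symm
    refine Finset.card_bij (fun i _ => Fin.castLE h i) ?_ ?_ ?_
    · intro i hi
      simpa [inputString] using hi
    · intro i _ j _ hij
      exact Fin.castLE_injective h hij
    · intro j hj
      simp only [Finset.mem_filter, Finset.mem_univ, true_and, inputString] at hj
      split_ifs at hj with hjn
      exact ⟨⟨j, hjn⟩, by simpa using hj, rfl⟩
  rw [e1, Finset.prod_ite, Finset.prod_const, Finset.prod_const_one, mul_one, e2, parity,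
    neg_one_pow_eq_ite]
  generalize (Finset.univ.filter fun i => x i = true).card = m
  rcases Nat.even_or_odd m with hm | hm
  · rw [if_pos hm, if_neg]
    obtain ⟨k, rfl⟩ := hm
    simp [Nat.bodd_add]
  · rw [if_neg (Nat.not_even_iff_odd.2 hm), if_pos]
    obtain ⟨k, rfl⟩ := hm
    simp [two_mul, Nat.bodd_add]

lemma wt_cases (n N : ℕ) (σ : Fin N → Bool) :
    wt (inputs n N) σ = 0 ∨ ∃ x : Fin n → Bool, σ = inputString n x ∨ N < n := by
  by_cases hN : N < n
  · exact Or.inr ⟨fun _ => false, Or.inr hN⟩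
  by_cases h : ∀ i : Fin N, n ≤ (i : ℕ) → σ i = false
  · refine Or.inr ⟨fun i => σ (Fin.castLE (by omega) i), Or.inl ?_⟩
    funext i
    simp only [inputString]
    split_ifs with hi
    · rfl
    · exact h i (by omega)
  · left
    push Not at h
    obtain ⟨i, hi, hσ⟩ := h
    refine Finset.prod_eq_zero (Finset.mem_univ i) ?_
    have : i ∉ inputs n N := by simp [inputs]; omega
    simp_all

lemma eventually_pow_le (R : ℕ) : ∃ b₀ : ℕ, ∀ b ≥ b₀, 8 * b ^ R ≤ 2 ^ b := by
  have h := tendsto_pow_const_div_const_pow_of_one_lt R (r := (2 : ℝ)) (by norm_num)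
  have h2 := h.eventually (gt_mem_nhds (by norm_num : (0 : ℝ) < 1 / 8))
  obtain ⟨b₀, hb⟩ := Filter.eventually_atTop.1 h2
  refine ⟨b₀, fun b hb' => ?_⟩
  have := hb b hb'
  rw [div_lt_iff₀ (by positivity)] at this
  have h3 : (8 : ℝ) * (b : ℝ) ^ R ≤ 2 ^ b := by linarith
  exact_mod_cast h3

/-- Choice of the base `b`. -/
lemma exists_base (e m b₀ : ℕ) (he : 1 ≤ e) : ∃ n₀ : ℕ, ∀ n ≥ n₀, ∃ b ≥ b₀,
    n ≤ b ^ (2 * e) ∧ b ^ e * m ≤ n := by
  refine ⟨(b₀ + 2 ^ e * m + 2) ^ (2 * e), fun n hn => ?_⟩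
  have hex : ∃ b, n ≤ b ^ (2 * e) := ⟨n, Nat.le_self_pow (by omega) n⟩
  have hb := Nat.find_spec hex
  have hge : b₀ + 2 ^ e * m + 2 ≤ Nat.find hex := by
    by_contra hlt
    have : Nat.find hex ^ (2 * e) < (b₀ + 2 ^ e * m + 2) ^ (2 * e) :=
      Nat.pow_lt_pow_left (by omega) (by omega)
    omega
  obtain ⟨b, hb'⟩ : ∃ b, Nat.find hex = b + 1 := ⟨Nat.find hex - 1, by omega⟩
  have hmin : b ^ (2 * e) < n := not_le.1 (Nat.find_min hex (by omega))
  refine ⟨b + 1, by omega, hb' ▸ hb, ?_⟩
  have h1 : (b + 1) ^ e ≤ 2 ^ e * b ^ e := by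
    rw [← mul_pow]; exact Nat.pow_le_pow_left (by omega) _
  have h2 : 2 ^ e * m ≤ b ^ e := le_trans (by omega) (Nat.le_self_pow (by omega) b)
  calc (b + 1) ^ e * m ≤ 2 ^ e * b ^ e * m := Nat.mul_le_mul_right _ h1
    _ = b ^ e * (2 ^ e * m) := by ring
    _ ≤ b ^ e * b ^ e := Nat.mul_le_mul_left _ h2
    _ = b ^ (2 * e) := by ring
    _ ≤ n := hmin.le

theorem main (d c : ℕ) (ε : ℝ) (hε : 0 < ε) :
    ∃ n₀ : ℕ, ∀ n ≥ n₀, ∀ N : ℕ, n ≤ N → N ≤ n ^ c →
      ∀ C : List (List (Gate N)), CircuitWF C → C.length ≤ d →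
        ∀ o : Fin N, ∃ x : Fin n → Bool,
          outcomeProb o (parity x) (runCircuit C (basisState (inputString n x))) < 1 / 2 + ε := by
  obtain ⟨y, hy⟩ := exists_pow_lt_of_lt_one hε (by norm_num : (1 / 2 : ℝ) < 1)
  obtain ⟨e, he, hband⟩ := bandAll_bound (2 * d) (2 * (c + 1))
  obtain ⟨b₁, hb₁⟩ := eventually_pow_le (2 * (c + 1) * e)
  obtain ⟨n₀, hn₀⟩ := exists_base e (1 + y) (b₁ + 10000) he
  refine ⟨n₀ + 2, fun n hn N hnN hNc C hC hCd o => ?_⟩
  obtain ⟨b, hb, hb1, hb2⟩ := hn₀ n (by omega)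
  have hN1 : Fintype.card (Fin N) + 1 ≤ b ^ (2 * (c + 1) * e) := by
    rw [Fintype.card_fin]
    have h1 : 1 ≤ n ^ c := Nat.one_le_pow _ _ (by omega)
    calc N + 1 ≤ n ^ c * 2 := by omega
      _ ≤ n ^ c * n := Nat.mul_le_mul_left _ (by omega)
      _ = n ^ (c + 1) := by ring
      _ ≤ (b ^ (2 * e)) ^ (c + 1) := Nat.pow_le_pow_left hb1 _
      _ = _ := by ring
  have hB := hband b (by omega) (Fin N) (Mat (Fin N)) (frames (Fin N)) frameComm_frames
    (le_trans (Nat.mul_le_mul_left _ hN1) (hb₁ b (by omega))) hN1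
  obtain ⟨l, hl1, hl2, hl3⟩ := circuit_decomp C hC
  have hB2 := hB ((l.map star).reverse) (by simp; omega) (by
    intro u hu
    simp only [List.mem_reverse, List.mem_map] at hu
    obtain ⟨v, hv, rfl⟩ := hu
    exact isLayer_star_final (hl2 v hv)) (stdFrame (Fin N)) (frameOf_mem _ _)
  rw [star_list_prod] at hB2
  by_contra hcon
  push Not at hcon
  have hS : (inputs n N).Nonempty := by
    rw [← Finset.card_pos, card_inputs hnN]; omega
  have := bias_le (ε := ε) (η := (1 / 2 : ℝ) ^ y) hS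
    (star ((l.prod : unitary (Mat (Fin N))) : Mat (Fin N)) * stdFrame (Fin N) (mono {o}) *
      ((l.prod : unitary (Mat (Fin N))) : Mat (Fin N))) (by
      intro Ψ hΨ
      have h1 := hB2 Ψ hΨ {o} (inputs n N) 0 y
      simp only [conj_apply, Unitary.coe_star, star_star, Finset.card_singleton, zero_add] at h1
      refine le_trans ?_ h1
      rw [mul_assoc (Ψ _), mul_assoc (Ψ _), card_inputs hnN]
      exact norm_ge_mono Ψ _ hb2 _) (by
      intro σ
      rcases wt_cases n N σ with h0 | ⟨x, rfl | h0⟩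
      · simp [h0]
      · have h1 := hcon x
        rw [hl3] at h1
        rw [wt_input hnN, ← outcome_true]
        cases hp : parity x
        · rw [hp, outcome_false] at h1
          rw [if_neg (by simp), abs_one]; linarith
        · rw [hp] at h1
          rw [if_pos rfl, abs_neg, abs_one]; linarith
      · omega)
  linarith

end Crest.Agent.R344
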