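import Crest.Prelude.Def_QCircuit
import Crest.Agent.R344.Tens

/-!
# Row 344: the parity coefficient of a banded operator is small
-/

set_option autoImplicit false
set_option linter.unusedSectionVars false

namespace Crest.Agent.R344

open Finset Matrix Crest.Quantum.Circuit
open scoped Matrix.Norms.L2Operator

section
variable {ι : Type} [Fintype ι] [DecidableEq ι]

/-- Product vectors. -/
def pvec (v : ι → Bool → ℂ) : (ι → Bool) → ℂ := fun σ => ∏ i, v i (σ i)

lemma tens_mulVec (a : ι → Matrix Bool Bool ℂ) (v : ι → Bool → ℂ) :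
    tens a *ᵥ pvec v = pvec fun i => a i *ᵥ v i := by
  funext σ
  simp only [Matrix.mulVec, dotProduct, tens_apply, pvec]
  rw [Finset.prod_univ_sum]
  simp only [Fintype.piFinset_univ, Finset.prod_mul_distrib]

lemma frameOf_mulVec (p : ι → Matrix Bool Bool ℂ) (hp : ∀ i, IsStarProjection (p i))
    (v : ι → Bool → ℂ) (z : ι → Bool)
    (hv : ∀ i, (if z i = true then p i else 1 - p i) *ᵥ v i = v i) (f : Fn ι) :
    frameOf p hp f *ᵥ pvec v = f z • pvec v := by
  have h1 : atom p z *ᵥ pvec v = pvec v := by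
    rw [atom, tens_mulVec]; simp only [hv]
  have h2 : frameOf p hp f * atom p z = f z • atom p z := by
    rw [frameOf_apply, Finset.sum_mul]
    simp only [smul_mul_assoc, atom_mul hp, smul_ite, smul_zero]
    rw [Finset.sum_ite_eq' Finset.univ z]; simp
  calc frameOf p hp f *ᵥ pvec v = frameOf p hp f *ᵥ (atom p z *ᵥ pvec v) := by rw [h1]
    _ = (f z • atom p z) *ᵥ pvec v := by rw [Matrix.mulVec_mulVec, h2]
    _ = _ := by rw [Matrix.smul_mulVec, h1]

lemma norm_dot_le (O : Mat ι) (u v : (ι → Bool) → ℂ) {Z : ℝ} (hu : ∑ σ, ‖u σ‖ ^ 2 = Z)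
    (hv : ∑ σ, ‖v σ‖ ^ 2 = Z) : ‖star u ⬝ᵥ (O *ᵥ v)‖ ≤ ‖O‖ * Z := by
  have hZ : 0 ≤ Z := hu ▸ Finset.sum_nonneg fun _ _ => by positivity
  have nu : ‖(WithLp.toLp 2 u : EuclideanSpace ℂ (ι → Bool))‖ = √Z := by
    rw [EuclideanSpace.norm_eq, ← hu]
  have nv : ‖(WithLp.toLp 2 v : EuclideanSpace ℂ (ι → Bool))‖ = √Z := by
    rw [EuclideanSpace.norm_eq, ← hv]
  have h1 : star u ⬝ᵥ (O *ᵥ v) = inner ℂ (WithLp.toLp 2 u : EuclideanSpace ℂ (ι → Bool))
      (Matrix.toEuclideanCLM (𝕜 := ℂ) O (WithLp.toLp 2 v)) := by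
    rw [Matrix.toEuclideanCLM_toLp, EuclideanSpace.inner_toLp_toLp, dotProduct_comm]
  rw [h1]
  calc _ ≤ ‖(WithLp.toLp 2 u : EuclideanSpace ℂ (ι → Bool))‖ *
        ‖Matrix.toEuclideanCLM (𝕜 := ℂ) O (WithLp.toLp 2 v)‖ := norm_inner_le_norm _ _
    _ ≤ √Z * (‖O‖ * √Z) := by
        rw [nu]
        gcongr
        rw [← nv, ← Matrix.l2_opNorm_toEuclideanCLM]
        exact ContinuousLinearMap.le_opNorm _ _
    _ = ‖O‖ * (√Z * √Z) := by ring
    _ = _ := by rw [Real.mul_self_sqrt hZ]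

/-- The sign `(-1)^(b t)`. -/
def sg (b t : Bool) : ℝ := if b = true ∧ t = true then -1 else 1

/-- One-qubit test vectors: `|±⟩` (unnormalised) on input wires, `|0⟩` elsewhere. -/
def tv (c : Prop) [Decidable c] (b : Bool) : Bool → ℂ := fun t =>
  if c then (sg b t : ℂ) else if t = true then 0 else 1

/-- One-qubit projections: onto `|±⟩` on input wires, onto `|1⟩` elsewhere. -/
noncomputable def tp (c : Prop) [Decidable c] (b : Bool) : Matrix Bool Bool ℂ := fun t t' =>
  if c then (1 / 2 : ℂ) * (sg b t : ℂ) * (sg b t' : ℂ) else if t = true ∧ t' = true then 1 else 0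

lemma tp_proj (c : Prop) [Decidable c] (b : Bool) : IsStarProjection (tp c b) := by
  constructor
  · unfold IsIdempotentElem
    ext t t'
    by_cases hc : c <;> cases b <;> cases t <;> cases t' <;>
      simp [tp, sg, hc, Matrix.mul_apply] <;> norm_num
  · unfold IsSelfAdjoint
    ext t t'
    by_cases hc : c <;> cases b <;> cases t <;> cases t' <;> simp [tp, sg, hc, Matrix.star_apply]

lemma tp_tv_same (c : Prop) [Decidable c] (b : Bool) :
    (if decide c = true then tp c b else 1 - tp c b) *ᵥ tv c b = tv c b := by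
  ext t
  by_cases hc : c <;> cases b <;> cases t <;>
    simp [tp, tv, sg, hc, Matrix.mulVec, dotProduct, Matrix.one_apply] <;> norm_num

lemma tp_tv_not (c : Prop) [Decidable c] (b : Bool) :
    (if false = true then tp c b else 1 - tp c b) *ᵥ tv c (!b) = tv c (!b) := by
  ext t
  by_cases hc : c <;> cases b <;> cases t <;>
    simp [tp, tv, sg, hc, Matrix.mulVec, dotProduct, Matrix.one_apply] <;> norm_num

/-- The signed weight of a pattern. -/
def wt (S : Finset ι) (σ : ι → Bool) : ℝ :=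
  ∏ i, if i ∈ S then sg true (σ i) else if σ i = true then 0 else 1

lemma sum_pi_prod {R : Type} [CommSemiring R] (g : ι → Bool → R) :
    ∑ σ : ι → Bool, ∏ i, g i (σ i) = ∏ i, (g i true + g i false) := by
  have := Finset.prod_univ_sum (fun _ : ι => (Finset.univ : Finset Bool)) g
  simp only [Fintype.piFinset_univ, Fintype.sum_bool] at this
  exact this.symm

lemma sum_wt {S : Finset ι} (hS : S.Nonempty) : ∑ σ, wt S σ = 0 := by
  unfold wt
  rw [sum_pi_prod (fun i t => if i ∈ S then sg true t else if t = true then 0 else 1)]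
  obtain ⟨i, hi⟩ := hS
  exact Finset.prod_eq_zero (Finset.mem_univ i) (by simp [hi, sg])

lemma sum_abs_wt (S : Finset ι) : ∑ σ, |wt S σ| = ∏ i, if i ∈ S then (2 : ℝ) else 1 := by
  simp only [wt, Finset.abs_prod]
  rw [sum_pi_prod (fun i t => |if i ∈ S then sg true t else if t = true then 0 else 1|)]
  refine Finset.prod_congr rfl fun i _ => ?_
  by_cases hi : i ∈ S <;> simp [hi, sg]
  norm_num

lemma sum_norm_pvec (S : Finset ι) (s : ι → Bool) :
    ∑ σ, ‖pvec (fun i => tv (i ∈ S) (s i)) σ‖ ^ 2 = ∏ i, if i ∈ S then (2 : ℝ) else 1 := by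
  simp only [pvec, norm_prod, ← Finset.prod_pow]
  rw [sum_pi_prod (fun i t => ‖tv (i ∈ S) (s i) t‖ ^ 2)]
  refine Finset.prod_congr rfl fun i _ => ?_
  by_cases hi : i ∈ S <;> cases s i <;> simp [hi, sg, tv] <;> norm_num

lemma sum_kernel (S : Finset ι) (σ τ : ι → Bool) :
    ∑ s : ι → Bool, star (pvec (fun i => tv (i ∈ S) (s i)) σ) *
      pvec (fun i => tv (i ∈ S) (!s i)) τ =
      if σ = τ then (2 : ℂ) ^ Fintype.card ι * (wt S σ : ℂ) else 0 := by
  simp only [pvec, star_prod, ← Finset.prod_mul_distrib]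
  rw [sum_pi_prod (fun i b => star (tv (i ∈ S) b (σ i)) * tv (i ∈ S) (!b) (τ i))]
  split_ifs with h
  · subst h
    rw [wt, Complex.ofReal_prod, ← Finset.card_univ, ← Finset.prod_const, ← Finset.prod_mul_distrib]
    refine Finset.prod_congr rfl fun i _ => ?_
    by_cases hi : i ∈ S <;> cases σ i <;> simp [hi, sg, tv] <;> norm_num
  · obtain ⟨i, hi⟩ := Function.ne_iff.1 h
    refine Finset.prod_eq_zero (Finset.mem_univ i) ?_
    by_cases hS : i ∈ S <;> cases h1 : σ i <;> cases h2 : τ i <;> simp_all [sg, tv]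

/-- The parity coefficient of an operator which cannot create `|S|` excitations is small. -/
theorem parity_coeff_le (S : Finset ι) (O : Mat ι) {η : ℝ}
    (hO : ∀ Ψ ∈ frames ι, ‖Ψ (ge S S.card) * O * Ψ (le S 0)‖ ≤ η) :
    ‖∑ σ, (wt S σ : ℂ) * O σ σ‖ ≤ η * ∏ i, if i ∈ S then (2 : ℝ) else 1 := by
  set Z : ℝ := ∏ i, if i ∈ S then (2 : ℝ) else 1 with hZ
  have hZ0 : 0 ≤ Z := Finset.prod_nonneg fun i _ => by split_ifs <;> norm_num
  set u : (ι → Bool) → (ι → Bool) → ℂ := fun s => pvec fun i => tv (i ∈ S) (s i) with hu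
  have each : ∀ s : ι → Bool, ‖star (u s) ⬝ᵥ (O *ᵥ u fun i => !s i)‖ ≤ η * Z := by
    intro s
    set Ψ := frameOf (fun i => tp (i ∈ S) (s i)) fun i => tp_proj _ _ with hΨ
    have e1 : Ψ (ge S S.card) *ᵥ u s = u s := by
      rw [hΨ, hu, frameOf_mulVec _ _ _ (fun i => decide (i ∈ S)) fun i => tp_tv_same _ _]
      have : cnt S (fun i => decide (i ∈ S)) = S.card := by
        unfold cnt; rw [Finset.filter_true_of_mem]; intro i hi; simpa using hi
      simp [ge, this]
    have e2 : Ψ (le S 0) *ᵥ (u fun i => !s i) = u fun i => !s i := by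
      rw [hΨ, hu, frameOf_mulVec _ _ _ (fun _ => false) fun i => tp_tv_not _ _]
      simp [le, cnt]
    have e3 : star (u s) ⬝ᵥ (O *ᵥ u fun i => !s i) =
        star (u s) ⬝ᵥ ((Ψ (ge S S.card) * O * Ψ (le S 0)) *ᵥ u fun i => !s i) := by
      rw [← Matrix.mulVec_mulVec, ← Matrix.mulVec_mulVec, e2, Matrix.dotProduct_mulVec (star (u s))
        (Ψ (ge S S.card))]
      congr 1
      have hs : (Ψ (ge S S.card))ᴴ = Ψ (ge S S.card) := star_ind Ψ _
      rw [← hs, ← Matrix.star_mulVec, e1]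
    rw [e3]
    refine (norm_dot_le _ _ _ (sum_norm_pvec S s) (sum_norm_pvec S fun i => !s i)).trans ?_
    exact mul_le_mul_of_nonneg_right (hO Ψ (frameOf_mem _ _)) hZ0
  have total : ∑ s : ι → Bool, star (u s) ⬝ᵥ (O *ᵥ u fun i => !s i) =
      (2 : ℂ) ^ Fintype.card ι * ∑ σ, (wt S σ : ℂ) * O σ σ := by
    simp only [dotProduct, Matrix.mulVec, Finset.mul_sum, Pi.star_apply]
    rw [Finset.sum_comm]
    refine Finset.sum_congr rfl fun σ _ => ?_
    rw [Finset.sum_comm]
    have : ∀ τ, ∑ s : ι → Bool, star (u s σ) * (O σ τ * u (fun i => !s i) τ) =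
        O σ τ * if σ = τ then (2 : ℂ) ^ Fintype.card ι * (wt S σ : ℂ) else 0 := by
      intro τ
      rw [← sum_kernel, Finset.mul_sum]
      refine Finset.sum_congr rfl fun s _ => ?_
      simp only [hu]; ring
    simp only [this, mul_ite, mul_zero, Finset.sum_ite_eq, Finset.mem_univ, if_true]
    ring
  have h2 : (2 : ℝ) ^ Fintype.card ι * ‖∑ σ, (wt S σ : ℂ) * O σ σ‖ ≤
      (2 : ℝ) ^ Fintype.card ι * (η * Z) := by
    calc _ = ‖∑ s : ι → Bool, star (u s) ⬝ᵥ (O *ᵥ u fun i => !s i)‖ := by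
          rw [total, norm_mul, norm_pow]; simp
      _ ≤ ∑ _s : ι → Bool, η * Z := (norm_sum_le _ _).trans (Finset.sum_le_sum fun s _ => each s)
      _ = _ := by simp
  exact le_of_mul_le_mul_left h2 (by positivity)

/-- If the diagonal of `O` is uniformly biased towards the parity then the bias is small. -/
theorem bias_le {S : Finset ι} (hS : S.Nonempty) (O : Mat ι) {η ε : ℝ}
    (hO : ∀ Ψ ∈ frames ι, ‖Ψ (ge S S.card) * O * Ψ (le S 0)‖ ≤ η)
    (h : ∀ σ, ε * |wt S σ| ≤ -(wt S σ * ((O σ σ).re - 1 / 2))) : ε ≤ η := by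
  have h1 := parity_coeff_le S O hO
  have hZ : (0 : ℝ) < ∏ i, if i ∈ S then (2 : ℝ) else 1 :=
    Finset.prod_pos fun i _ => by split_ifs <;> norm_num
  have h2 := Finset.sum_le_sum fun σ (_ : σ ∈ Finset.univ) => h σ
  rw [← Finset.mul_sum, sum_abs_wt] at h2
  have h3 : ∑ σ, -(wt S σ * ((O σ σ).re - 1 / 2)) = -(∑ σ, (wt S σ : ℂ) * O σ σ).re := by
    simp only [mul_sub, Finset.sum_neg_distrib, Finset.sum_sub_distrib, ← Finset.sum_mul, sum_wt hS,
      Complex.re_sum, Complex.re_ofReal_mul]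
    ring
  rw [h3] at h2
  have h4 := Complex.abs_re_le_norm (∑ σ, (wt S σ : ℂ) * O σ σ)
  have h5 := neg_abs_le (∑ σ, (wt S σ : ℂ) * O σ σ).re
  exact le_of_mul_le_mul_right (by linarith) hZ

end

end Crest.Agent.R344
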