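import Crest.Agent.R344.Defs

/-!
# Row 344: the approximate AND polynomial

Recipe.  `LowDeg` calculus (all immediate from the seminorm definition):
* `LowDeg D B f → D ≤ D' → B ≤ B' → LowDeg D' B' f` (note `0 ≤ η` from `T = ∅`);
* sums add `B`, scalars multiply `B` by `‖c‖`, `1 = mono ∅` is `LowDeg 0 1`,
  `coord i = mono {i}`, so `z ↦ (cnt S z : ℂ) = ∑ i ∈ S, coord i` is `LowDeg 1 (card ι)`;
* products: `LowDeg D B f → LowDeg D' B' g → LowDeg (D+D') (B*B') (f*g)`: apply the first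
  hypothesis to `ν.comp (LinearMap.mulRight ℂ g)`, the second one to
  `ν.comp (LinearMap.mulLeft ℂ (mono T))`, and `mono T * mono T' = mono (T ∪ T')`;
* `LowDeg D B f → ‖f z‖ ≤ B` (seminorm `f ↦ ‖f z‖`, `η = 1`).
Let `c = cnt S`, `N = card ι`.  Put `f = (∏ i ∈ Icc 1 y, (1 - c / i)) * (T_d(u) / T_d(u₀)) ^ m`,
`u = 1 - 2 (c - y) / J`, `u₀ = 1 + 2 y / J`, `m = (L + 1) * y` or `m = L * y`,
`T_d` the Chebyshev recursion `T_{n+2} = 2 u T_{n+1} - T_n` (define it in any commutative ring, or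
use `Polynomial.Chebyshev.T`).  Facts: `|T_d(t)| ≤ 1` on `[-1,1]` (`t = cos θ`);
`T_d(1 + δ) ≥ 1 + d² δ` for `δ ≥ 0` (induction on `a_n ≥ 1`, `a_{n+1} - a_n ≥ (2n+1) δ`), so
`T_d(u₀) ≥ 1 + 2 d² y / J ≥ 3`.  At `c = 0`, `f = 1`; for `1 ≤ c ≤ y` the first factor vanishes;
for `y ≤ c ≤ J`, `u ∈ [-1,1]`, the first factor is at most `(N+1)^y ≤ 2^((L-3) y)` (from its
`LowDeg y ((N+1)^y)` bound) and the second at most `2^(-m)`; `m = L * y` suffices since
`8 (N+1) ≤ 2^L`.  Degree `y + d m ≤ 2 L y d`; `u` is `LowDeg 1 (3 + 2N)`, `T_n(u)` is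
`LowDeg n ((4N+7)^n)`, and `4N + 7 ≤ 2^L`, `N + 1 ≤ 2^L`.
-/

set_option autoImplicit false
set_option linter.unusedSectionVars false

namespace Crest.Agent.R344

open Finset

variable {ι : Type} [Fintype ι] [DecidableEq ι]

/-! ### `LowDeg` calculus -/

theorem LowDeg.mono' {D D' : ℕ} {B B' : ℝ} {f : Fn ι} (h : LowDeg D B f) (hD : D ≤ D')
    (hB : B ≤ B') : LowDeg D' B' f := by
  intro ν η hη
  have h0 : 0 ≤ η := (apply_nonneg ν _).trans (hη ∅ (by simp))
  exact (h ν η fun T hT => hη T (hT.trans hD)).trans (mul_le_mul_of_nonneg_right hB h0)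

theorem LowDeg.add {D : ℕ} {B B' : ℝ} {f g : Fn ι} (hf : LowDeg D B f) (hg : LowDeg D B' g) :
    LowDeg D (B + B') (f + g) := by
  intro ν η hη
  have := map_add_le_add ν f g
  have := hf ν η hη
  have := hg ν η hη
  linarith

theorem LowDeg.smul {D : ℕ} {B : ℝ} {f : Fn ι} (hf : LowDeg D B f) (c : ℝ) :
    LowDeg D (|c| * B) ((c : ℂ) • f) := by
  intro ν η hη
  rw [map_smul_eq_mul, Complex.norm_real, Real.norm_eq_abs, mul_assoc]
  exact mul_le_mul_of_nonneg_left (hf ν η hη) (abs_nonneg _)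

theorem lowDeg_mono (T : Finset ι) : LowDeg T.card 1 (mono T) := by
  intro ν η hη
  simpa using hη T le_rfl

theorem mono_empty : mono (∅ : Finset ι) = 1 := by
  funext z; simp [mono]

theorem lowDeg_one : LowDeg 0 1 (1 : Fn ι) := by
  simpa [mono_empty] using lowDeg_mono (∅ : Finset ι)

theorem lowDeg_zero (D : ℕ) : LowDeg D 0 (0 : Fn ι) := by
  intro ν η _
  simp

theorem mono_mul_mono (T T' : Finset ι) : mono T * mono T' = mono (T ∪ T') := by
  funext z
  simp only [mono, Pi.mul_apply, Finset.forall_mem_union]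
  by_cases h1 : ∀ i ∈ T, z i = true <;> by_cases h2 : ∀ i ∈ T', z i = true
  · rw [if_pos h1, if_pos h2, if_pos ⟨h1, h2⟩, one_mul]
  · rw [if_neg h2, mul_zero, if_neg (fun h => h2 h.2)]
  · rw [if_neg h1, zero_mul, if_neg (fun h => h1 h.1)]
  · rw [if_neg h1, zero_mul, if_neg (fun h => h1 h.1)]

theorem LowDeg.mul {D D' : ℕ} {B B' : ℝ} {f g : Fn ι} (hf : LowDeg D B f) (hg : LowDeg D' B' g) :
    LowDeg (D + D') (B * B') (f * g) := by
  intro ν η hη
  have := hf (ν.comp (LinearMap.mulRight ℂ g)) (B' * η) fun T hT => by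
    have := hg (ν.comp (LinearMap.mulLeft ℂ (mono T))) η fun T' hT' => by
      simp only [Seminorm.comp_apply, LinearMap.mulLeft_apply, mono_mul_mono]
      exact hη _ ((Finset.card_union_le _ _).trans (by omega))
    simpa using this
  simpa [mul_assoc] using this

theorem LowDeg.norm_le {D : ℕ} {B : ℝ} {f : Fn ι} (hf : LowDeg D B f) (z : ι → Bool) :
    ‖f z‖ ≤ B := by
  have := hf ((normSeminorm ℂ ℂ).comp (LinearMap.proj z)) 1 fun T _ => by
    simp only [Seminorm.comp_apply, LinearMap.coe_proj, Function.eval, coe_normSeminorm, mono]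
    split_ifs <;> simp
  simpa using this

theorem lowDeg_cnt (S : Finset ι) :
    LowDeg 1 (Fintype.card ι) (fun z => (cnt S z : ℂ) : Fn ι) := by
  have h : ∀ S : Finset ι, LowDeg 1 S.card (fun z => (cnt S z : ℂ) : Fn ι) := by
    intro S
    induction S using Finset.induction_on with
    | empty => simpa [cnt, Pi.zero_def] using (lowDeg_zero 1 : LowDeg 1 0 (0 : Fn ι))
    | insert i S hi ih =>
      have e : (fun z => (cnt (insert i S) z : ℂ) : Fn ι) =
          (fun z => (cnt S z : ℂ) : Fn ι) + mono {i} := by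
        funext z
        simp only [cnt, mono, Finset.filter_insert, Pi.add_apply, Finset.mem_singleton, forall_eq]
        split_ifs with hz
        · rw [Finset.card_insert_of_notMem (by simp [hi])]; simp
        · simp
      rw [e, Finset.card_insert_of_notMem hi]
      simpa using ih.add (lowDeg_mono {i})
  exact (h S).mono' le_rfl (by exact_mod_cast Finset.card_le_univ S)

/-- `LowDeg` for a real function of the count. -/
def LowC (S : Finset ι) (D : ℕ) (B : ℝ) (g : ℝ → ℝ) : Prop :=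
  LowDeg D B (fun z => ((g (cnt S z) : ℝ) : ℂ) : Fn ι)

theorem LowC.mono' {S : Finset ι} {D D' : ℕ} {B B' : ℝ} {g : ℝ → ℝ} (h : LowC S D B g)
    (hD : D ≤ D') (hB : B ≤ B') : LowC S D' B' g := LowDeg.mono' h hD hB

theorem lowC_one (S : Finset ι) : LowC S 0 1 fun _ => 1 := by
  simpa [LowC, Pi.one_def] using (lowDeg_one : LowDeg 0 1 (1 : Fn ι))

theorem LowC.add {S : Finset ι} {D : ℕ} {B B' : ℝ} {g h : ℝ → ℝ} (hg : LowC S D B g)
    (hh : LowC S D B' h) : LowC S D (B + B') fun t => g t + h t := by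
  have := LowDeg.add hg hh
  unfold LowC
  convert this using 1
  funext z; simp

theorem LowC.mul {S : Finset ι} {D D' : ℕ} {B B' : ℝ} {g h : ℝ → ℝ} (hg : LowC S D B g)
    (hh : LowC S D' B' h) : LowC S (D + D') (B * B') fun t => g t * h t := by
  have := LowDeg.mul hg hh
  unfold LowC
  convert this using 1
  funext z; simp

theorem LowC.smul {S : Finset ι} {D : ℕ} {B : ℝ} {g : ℝ → ℝ} (hg : LowC S D B g) (c : ℝ) :
    LowC S D (|c| * B) fun t => c * g t := by
  have := LowDeg.smul hg c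
  unfold LowC
  convert this using 1
  funext z; simp

theorem lowC_affine (S : Finset ι) (a b : ℝ) :
    LowC S 1 (|a| + |b| * Fintype.card ι) fun t => a + b * t := by
  have h1 : LowC S 1 (Fintype.card ι) fun t => t := by simpa [LowC] using lowDeg_cnt S
  have := (((lowC_one S).smul a).mono' zero_le_one le_rfl).add (h1.smul b)
  simpa using this

theorem LowC.pow {S : Finset ι} {D : ℕ} {B : ℝ} {g : ℝ → ℝ} (hg : LowC S D B g) (m : ℕ) :
    LowC S (D * m) (B ^ m) fun t => g t ^ m := by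
  induction m with
  | zero => simpa using lowC_one S
  | succ m ih => simpa [pow_succ, mul_add] using ih.mul hg

theorem lowC_prod {S : Finset ι} {B : ℝ} (I : Finset ℕ) {g : ℕ → ℝ → ℝ}
    (hg : ∀ i ∈ I, LowC S 1 B (g i)) : LowC S I.card (B ^ I.card) fun t => ∏ i ∈ I, g i t := by
  induction I using Finset.induction_on with
  | empty => simpa using lowC_one S
  | insert i I hi ih =>
    have := (hg i (Finset.mem_insert_self _ _)).mul
      (ih fun j hj => hg j (Finset.mem_insert_of_mem hj))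
    simp only [Finset.prod_insert hi, Finset.card_insert_of_notMem hi]
    rwa [pow_succ', add_comm]

/-! ### Chebyshev polynomials -/

/-- The Chebyshev recursion. -/
noncomputable def ch (t : ℝ) : ℕ → ℝ
  | 0 => 1
  | 1 => t
  | n + 2 => 2 * t * ch t (n + 1) - ch t n

theorem ch_cos (θ : ℝ) : ∀ n : ℕ, ch (Real.cos θ) n = Real.cos (n * θ)
  | 0 => by simp [ch]
  | 1 => by simp [ch]
  | n + 2 => by
    rw [ch, ch_cos θ (n + 1), ch_cos θ n]
    have e1 : ((n + 2 : ℕ) : ℝ) * θ = ((n + 1 : ℕ) : ℝ) * θ + θ := by push_cast; ring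
    have e2 : (n : ℝ) * θ = ((n + 1 : ℕ) : ℝ) * θ - θ := by push_cast; ring
    rw [e1, e2, Real.cos_add, Real.cos_sub]
    ring

theorem abs_ch_le {t : ℝ} (h1 : -1 ≤ t) (h2 : t ≤ 1) (n : ℕ) : |ch t n| ≤ 1 := by
  rw [← Real.cos_arccos h1 h2, ch_cos]
  exact Real.abs_cos_le_one _

theorem ch_growth {δ : ℝ} (hδ : 0 ≤ δ) (n : ℕ) :
    1 + (n : ℝ) ^ 2 * δ ≤ ch (1 + δ) n ∧
      (2 * n + 1) * δ ≤ ch (1 + δ) (n + 1) - ch (1 + δ) n := by
  induction n with
  | zero => simp [ch]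
  | succ n ih =>
    obtain ⟨h1, h2⟩ := ih
    have h3 : 1 + ((n + 1 : ℕ) : ℝ) ^ 2 * δ ≤ ch (1 + δ) (n + 1) := by push_cast; nlinarith
    refine ⟨h3, ?_⟩
    rw [ch]
    have h4 : 1 ≤ ch (1 + δ) (n + 1) := le_trans (le_add_of_nonneg_right (by positivity)) h3
    push_cast
    nlinarith [mul_le_mul_of_nonneg_left h4 hδ]

theorem lowC_ch {S : Finset ι} {B : ℝ} (hB : 0 ≤ B) {u : ℝ → ℝ} (hu : LowC S 1 B u) :
    ∀ n : ℕ, LowC S n ((2 * B + 1) ^ n) fun t => ch (u t) n
  | 0 => by simpa [ch] using lowC_one S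
  | 1 => by simpa [ch] using hu.mono' le_rfl (by linarith)
  | n + 2 => by
    have h1 := (hu.smul 2).mul (lowC_ch hB hu (n + 1))
    have h2 := ((lowC_ch hB hu n).smul (-1)).mono' (D' := 1 + (n + 1)) (by omega) le_rfl
    have h3 := (h1.add h2).mono' (D' := n + 2) (B' := (2 * B + 1) ^ (n + 2)) (by omega) (by
      have a1 : (2 * B + 1) ^ n ≤ (2 * B + 1) ^ (n + 1) :=
        pow_le_pow_right₀ (by linarith) (by omega)
      rw [pow_succ _ (n + 1)]
      norm_num
      nlinarith)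
    simpa [ch, sub_eq_add_neg] using h3

/-- A polynomial of degree `O(L √(J y))` in the bits of `S` which approximates the vacuum
indicator of `S` within `2^(-y)` on all patterns with at most `J` excitations. -/
theorem exists_and_poly (S : Finset ι) (L J y d : ℕ)
    (hL : 8 * (Fintype.card ι + 1) ≤ 2 ^ L) (hy : 1 ≤ y) (hd : 1 ≤ d) (hyJ : y ≤ J)
    (hJ : J ≤ y * d ^ 2) :
    ∃ f : Fn ι, LowDeg (2 * L * y * d) ((2 : ℝ) ^ (L * (2 * L * y * d))) f ∧
      (∀ z, ‖f z‖ ≤ (2 : ℝ) ^ (L * (2 * L * y * d))) ∧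
      ∀ z, cnt S z ≤ J → ‖vac S z - f z‖ ≤ (1 / 2 : ℝ) ^ y := by
  set N : ℝ := (Fintype.card ι : ℝ) with hN
  have hN0 : 0 ≤ N := by positivity
  have hL' : 8 * (N + 1) ≤ (2 : ℝ) ^ L := by rw [hN]; exact_mod_cast hL
  have hL1 : 1 ≤ L := by
    by_contra h
    have : L = 0 := by omega
    subst this
    omega
  have hJ0 : (0 : ℝ) < J := by exact_mod_cast (show 0 < J by omega)
  have hyJ' : (y : ℝ) ≤ J := by exact_mod_cast hyJ
  have hy0 : (0 : ℝ) ≤ y := by positivity
  set δ : ℝ := 2 * y / J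
  have hδ : 0 ≤ δ := by positivity
  have hδ2 : δ ≤ 2 := by rw [div_le_iff₀ hJ0]; linarith
  set u : ℝ → ℝ := fun t => (1 + δ) + (-(2 / J)) * t
  have hT : 2 ≤ ch (1 + δ) d := by
    refine le_trans ?_ (ch_growth hδ d).1
    have h1 : (J : ℝ) ≤ y * d ^ 2 := by exact_mod_cast hJ
    have h2 : 1 ≤ (d : ℝ) ^ 2 * δ := by
      rw [← mul_div_assoc, le_div_iff₀ hJ0]; nlinarith
    linarith
  set g : ℝ → ℝ := fun t => (∏ i ∈ Icc 1 y, (1 + (-(1 / (i : ℝ))) * t)) *
    ((ch (1 + δ) d)⁻¹ * ch (u t) d) ^ (L * y)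
  have hu : LowC S 1 (3 + 2 * N) u := by
    refine (lowC_affine S _ _).mono' le_rfl ?_
    have h1 : (1 : ℝ) ≤ J := by exact_mod_cast (show 1 ≤ J by omega)
    have h2 : |-(2 / (J : ℝ))| ≤ 2 := by
      rw [abs_neg, abs_of_nonneg (by positivity), div_le_iff₀ hJ0]; linarith
    rw [abs_of_nonneg (by linarith)]
    nlinarith
  have hfac : ∀ i ∈ Icc 1 y, LowC S 1 (N + 1) fun t => 1 + (-(1 / (i : ℝ))) * t := by
    intro i hi
    refine (lowC_affine S _ _).mono' le_rfl ?_
    have h1 : (1 : ℝ) ≤ i := by exact_mod_cast (Finset.mem_Icc.1 hi).1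
    have h2 : |-(1 / (i : ℝ))| ≤ 1 := by
      rw [abs_neg, abs_of_nonneg (by positivity), div_le_iff₀ (by linarith)]; linarith
    rw [abs_one]
    nlinarith
  have hP := lowC_prod _ hfac
  simp only [Nat.card_Icc, add_tsub_cancel_right] at hP
  have hQ := (((lowC_ch (by positivity) hu d).smul (ch (1 + δ) d)⁻¹).mono' le_rfl
    (B' := ((2 : ℝ) ^ L) ^ d) (by
      have h1 : |(ch (1 + δ) d)⁻¹| ≤ 1 := by
        rw [abs_of_nonneg (by positivity)]
        exact inv_le_one_of_one_le₀ (by linarith)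
      refine (mul_le_of_le_one_left (by positivity) h1).trans ?_
      exact pow_le_pow_left₀ (by positivity) (by linarith) _)).pow (L * y)
  have hdeg : y + d * (L * y) ≤ 2 * L * y * d := by
    have : y ≤ d * (L * y) := by
      calc y = 1 * (1 * y) := by ring
        _ ≤ d * (L * y) := by gcongr
    nlinarith
  have hg : LowC S (2 * L * y * d) ((2 : ℝ) ^ (L * (2 * L * y * d))) g := by
    refine (hP.mul hQ).mono' hdeg ?_
    calc (N + 1) ^ y * (((2 : ℝ) ^ L) ^ d) ^ (L * y)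
        ≤ ((2 : ℝ) ^ L) ^ y * (((2 : ℝ) ^ L) ^ d) ^ (L * y) := by
          gcongr; linarith
      _ = ((2 : ℝ) ^ L) ^ (y + d * (L * y)) := by rw [pow_add, pow_mul ((2 : ℝ) ^ L) d]
      _ ≤ ((2 : ℝ) ^ L) ^ (2 * L * y * d) :=
          pow_le_pow_right₀ (one_le_pow₀ one_le_two) hdeg
      _ = _ := by rw [← pow_mul]
  refine ⟨_, hg, fun z => LowDeg.norm_le hg z, fun z hz => ?_⟩
  by_cases h0 : cnt S z = 0
  · have hv : vac S z = 1 := by simp only [vac]; rw [if_pos (cnt_eq_zero.1 h0)]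
    have : g (cnt S z) = 1 := by
      simp only [g, u, h0, Nat.cast_zero, mul_zero, add_zero, Finset.prod_const_one, one_mul]
      rw [inv_mul_cancel₀ (by linarith), one_pow]
    rw [hv, this]
    simp
  have hv : vac S z = 0 := by simp only [vac]; rw [if_neg (fun h => h0 (cnt_eq_zero.2 h))]
  rw [hv, zero_sub, norm_neg, Complex.norm_real, Real.norm_eq_abs]
  by_cases h1 : cnt S z ≤ y
  · have : g (cnt S z) = 0 := by
      simp only [g]
      rw [Finset.prod_eq_zero (i := cnt S z) (Finset.mem_Icc.2 ⟨by omega, h1⟩), zero_mul]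
      have : (cnt S z : ℝ) ≠ 0 := by exact_mod_cast h0
      field_simp
      ring
    rw [this]
    simp
  have hc1 : (y : ℝ) ≤ cnt S z := by exact_mod_cast (show y ≤ cnt S z by omega)
  have hc2 : (cnt S z : ℝ) ≤ J := by exact_mod_cast hz
  have a1 := LowDeg.norm_le hP z
  rw [Complex.norm_real, Real.norm_eq_abs] at a1
  have a2 : |ch (u (cnt S z)) d| ≤ 1 := by
    have e : u (cnt S z) = 1 - 2 * (cnt S z - y) / J := by simp only [u, δ]; ring
    refine abs_ch_le ?_ ?_ d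
    · have : 2 * ((cnt S z : ℝ) - y) / J ≤ 2 := by rw [div_le_iff₀ hJ0]; linarith
      linarith
    · have : 0 ≤ 2 * ((cnt S z : ℝ) - y) / J := div_nonneg (by linarith) hJ0.le
      linarith
  have a3 : |(ch (1 + δ) d)⁻¹ * ch (u (cnt S z)) d| ≤ 1 / 2 := by
    rw [abs_mul, abs_of_nonneg (by positivity)]
    refine (mul_le_of_le_one_right (by positivity) a2).trans ?_
    rw [one_div]
    exact inv_anti₀ two_pos hT
  simp only [g]
  rw [abs_mul, abs_pow]
  calc _ ≤ (N + 1) ^ y * (1 / 2 : ℝ) ^ (L * y) := by gcongr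
    _ = ((N + 1) * (1 / 2 : ℝ) ^ L) ^ y := by rw [mul_pow, pow_mul]
    _ ≤ (1 / 2 : ℝ) ^ y := by
      refine pow_le_pow_left₀ (by positivity) ?_ _
      rw [one_div_pow, mul_one_div, div_le_iff₀ (by positivity)]
      linarith

end Crest.Agent.R344
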