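import Crest.Agent.R344.Poly

/-!
# Row 344: from two-sided bandedness to the vacuum estimate (owner: helper41)
-/

set_option autoImplicit false
set_option linter.unusedSectionVars false

namespace Crest.Agent.R344

open Finset

variable {ι : Type} [Fintype ι] [DecidableEq ι] {𝒜 : Type} [CStarAlgebra 𝒜]

lemma norm_three_le {X Y Z : 𝒜} (hX : ‖X‖ ≤ 1) (hY : ‖Y‖ ≤ 1) (hZ : ‖Z‖ ≤ 1) :
    ‖X * Y * Z‖ ≤ 1 := by
  calc ‖X * Y * Z‖ ≤ ‖X‖ * ‖Y‖ * ‖Z‖ :=
        (norm_mul_le _ _).trans (by gcongr; exact norm_mul_le _ _)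
    _ ≤ 1 * 1 * 1 := by gcongr
    _ = 1 := by norm_num

lemma cnt_erase {S : Finset ι} {i : ι} (hi : i ∈ S) {z : ι → Bool} (hz : z i = true) :
    cnt (S.erase i) z + 1 = cnt S z := by
  unfold cnt
  rw [Finset.filter_erase, Finset.card_erase_add_one]
  simp [hi, hz]

lemma cnt_le_erase (S : Finset ι) (i : ι) (z : ι → Bool) : cnt S z ≤ cnt (S.erase i) z + 1 := by
  unfold cnt
  rw [Finset.filter_erase]
  have := Finset.pred_card_le_card_erase (s := S.filter fun i => z i = true) (a := i)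
  omega

lemma rh_general_aux {Ψ : Frame ι 𝒜} {P : 𝒜} {M : ℕ} {η : ℝ}
    (h : ∀ S : Finset ι, ‖Ψ (ge S M) * P * Ψ (vac S)‖ ≤ η) (a : ℕ) :
    ∀ S : Finset ι, ‖Ψ (ge S (a + M)) * P * Ψ (le S a)‖ ≤ ((Fintype.card ι + 1 : ℕ) : ℝ) ^ a * η := by
  have hη : 0 ≤ η := (norm_nonneg _).trans (h ∅)
  induction a with
  | zero => intro S; simpa [le_zero_eq_vac] using h S
  | succ a ih =>
    intro S
    set g : ι → Fn ι := fun i z =>
      if cnt S z ≤ a + 1 ∧ z i = true then ((cnt S z : ℂ))⁻¹ else 0 with hg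
    have hdec : le S (a + 1) = vac S + ∑ i ∈ S, g i := by
      funext z
      simp only [le, vac, Pi.add_apply, Finset.sum_apply, hg]
      by_cases h0 : cnt S z = 0
      · have h0' := cnt_eq_zero.1 h0
        rw [if_pos (by omega), if_pos h0', Finset.sum_eq_zero]
        · simp
        · intro i _; simp [h0]
      · rw [if_neg (fun hh => h0 (cnt_eq_zero.2 hh)), zero_add]
        by_cases h1 : cnt S z ≤ a + 1
        · simp only [h1, if_true, true_and]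
          rw [← Finset.sum_filter, Finset.sum_const, nsmul_eq_mul]
          exact (mul_inv_cancel₀ (by exact_mod_cast h0)).symm
        · simp [h1]
    have hgi : ∀ i ∈ S, ‖Ψ (ge S (a + 1 + M)) * P * Ψ (g i)‖ ≤
        ((Fintype.card ι + 1 : ℕ) : ℝ) ^ a * η := by
      intro i hi
      refine le_trans ?_ (ih (S.erase i))
      have hn : ‖Ψ (g i)‖ ≤ 1 := by
        refine norm_frame_le Ψ _ zero_le_one fun z => ?_
        simp only [hg]
        split_ifs with hz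
        · rw [norm_inv, Complex.norm_natCast]
          exact Nat.cast_inv_le_one _
        · simp
      have e1 : g i = le (S.erase i) a * g i := by
        funext z
        simp only [hg, le, Pi.mul_apply]
        split_ifs with h1 h2
        · simp
        · have := cnt_erase hi h1.2; omega
        · simp
        · simp
      have e2 : ge S (a + 1 + M) = ge S (a + 1 + M) * ge (S.erase i) (a + M) := by
        funext z
        simp only [ge, Pi.mul_apply]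
        split_ifs with h1 h2
        · simp
        · have := cnt_le_erase S i z; omega
        · simp
        · simp
      refine (norm_right_le Ψ e1 hn _).trans ?_
      rw [mul_assoc, mul_assoc]
      exact norm_left_le Ψ e2 (norm_ge_le _ _ _) _
    have h0 : ‖Ψ (ge S (a + 1 + M)) * P * Ψ (vac S)‖ ≤ η := by
      refine le_trans ?_ (h S)
      rw [mul_assoc, mul_assoc]
      exact norm_ge_mono Ψ S (by omega) _
    have hone : (1 : ℝ) ≤ ((Fintype.card ι + 1 : ℕ) : ℝ) ^ a :=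
      one_le_pow₀ (by exact_mod_cast Nat.le_add_left 1 _)
    rw [hdec, map_add, map_sum, mul_add, Finset.mul_sum]
    calc _ ≤ η + ∑ i ∈ S, ((Fintype.card ι + 1 : ℕ) : ℝ) ^ a * η :=
          (norm_add_le _ _).trans (add_le_add h0 ((norm_sum_le _ _).trans (Finset.sum_le_sum hgi)))
      _ = η + S.card * (((Fintype.card ι + 1 : ℕ) : ℝ) ^ a * η) := by simp
      _ ≤ ((Fintype.card ι + 1 : ℕ) : ℝ) ^ a * η +
            Fintype.card ι * (((Fintype.card ι + 1 : ℕ) : ℝ) ^ a * η) := by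
          gcongr
          · exact le_mul_of_one_le_left hη hone
          · exact Finset.card_le_univ S
      _ = _ := by push_cast; ring

/-- The vacuum estimate for `a` initial excitations (union bound over their positions). -/
theorem rh_general {Φ Ψ : Frame ι 𝒜} {A : Finset ι} {L κ Y : ℕ}
    (hL : 8 * (Fintype.card ι + 1) ≤ 2 ^ L) (h : RHat Φ Ψ A κ Y) (S : Finset ι) (a : ℕ) :
    ‖Ψ (ge S (a + κ * Y)) * Φ (vac A) * Ψ (le S a)‖ ≤ (2 : ℝ) ^ (L * a) * (1 / 2 : ℝ) ^ Y := by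
  refine (rh_general_aux h a S).trans ?_
  have : ((Fintype.card ι + 1 : ℕ) : ℝ) ≤ 2 ^ L := by
    exact_mod_cast (by omega : Fintype.card ι + 1 ≤ 2 ^ L)
  rw [pow_mul]
  gcongr

/-- Replacing a vacuum projection by its polynomial approximation. -/
lemma norm_vac_sub_le (Θ : Frame ι 𝒜) (A : Finset ι) {p : Fn ι} {E : ℕ} {δ B : ℝ} (hδ : 0 ≤ δ)
    (hB : 1 ≤ B) (hp : ∀ z, ‖p z‖ ≤ B) (hE : ∀ z, cnt A z ≤ E → ‖vac A z - p z‖ ≤ δ) (X : 𝒜) :
    ‖Θ (vac A - p) * X‖ ≤ δ * ‖X‖ + 2 * B * ‖Θ (ge A E) * X‖ := by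
  have e : vac A - p = (vac A - p) * (1 - ge A E) + (vac A - p) * ge A E := by ring
  have n1 : ‖Θ ((vac A - p) * (1 - ge A E))‖ ≤ δ := by
    refine norm_frame_le Θ _ hδ fun z => ?_
    simp only [Pi.mul_apply, Pi.sub_apply, Pi.one_apply, ge]
    split_ifs with h
    · simpa using hδ
    · simpa using hE z (by omega)
  have n2 : ‖Θ (vac A - p)‖ ≤ 2 * B := by
    refine norm_frame_le Θ _ (by linarith) fun z => ?_
    have : ‖vac A z‖ ≤ 1 := by simp only [vac]; split_ifs <;> simp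
    calc ‖(vac A - p) z‖ ≤ ‖vac A z‖ + ‖p z‖ := norm_sub_le _ _
      _ ≤ 2 * B := by linarith [hp z]
  calc ‖Θ (vac A - p) * X‖
      = ‖Θ ((vac A - p) * (1 - ge A E)) * X + Θ (vac A - p) * (Θ (ge A E) * X)‖ := by
        conv_lhs => rw [e, map_add, add_mul, map_mul Θ (vac A - p) (ge A E), mul_assoc]
    _ ≤ ‖Θ ((vac A - p) * (1 - ge A E))‖ * ‖X‖ + ‖Θ (vac A - p)‖ * ‖Θ (ge A E) * X‖ :=
        (norm_add_le _ _).trans (add_le_add (norm_mul_le _ _) (norm_mul_le _ _))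
    _ ≤ _ := by gcongr

/-- Low-degree functions of a banded frame are banded. -/
lemma Band.lowDeg {Φ Ψ : Frame ι 𝒜} {K : ℕ} (h : Band Φ Ψ K) {D M y : ℕ} {B : ℝ} {p : Fn ι}
    (hp : LowDeg D B p) (hM : K * (D + y) ≤ M) (S : Finset ι) :
    ‖Ψ (ge S M) * Φ p * Ψ (vac S)‖ ≤ B * (1 / 2 : ℝ) ^ y := by
  refine hp (sandwich (Ψ (ge S M)) Φ (Ψ (vac S))) _ fun T hT => ?_
  rw [sandwich_apply]
  have := h T S 0 y
  rw [le_zero_eq_vac] at this
  refine le_trans ?_ this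
  rw [mul_assoc, mul_assoc]
  refine norm_ge_mono Ψ S (le_trans ?_ hM) _
  exact Nat.mul_le_mul_left _ (by omega)

/-- The analytic core of the scale recursion. -/
lemma core {Φ Ψ : Frame ι 𝒜} {A S : Finset ι} {M a E J : ℕ} {p f : Fn ι} {δ η Bp Bf : ℝ}
    (hδ : 0 ≤ δ) (hη : 0 ≤ η) (hBp : 1 ≤ Bp) (hBf : 1 ≤ Bf) (hηδ : Bp * η ≤ δ)
    (hp : ∀ z, ‖p z‖ ≤ Bp) (hpE : ∀ z, cnt A z ≤ E → ‖vac A z - p z‖ ≤ δ)
    (hf : ∀ z, ‖f z‖ ≤ Bf) (hfJ : ∀ z, cnt S z ≤ J → ‖vac S z - f z‖ ≤ η)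
    (h1 : ‖Ψ (ge S M) * Φ p * Ψ (vac S)‖ ≤ δ)
    (h2 : ‖Φ (ge A E) * Ψ f * Φ (vac A)‖ ≤ η)
    (h3 : 2 * Bf * ‖Ψ (ge S J) * Φ (vac A) * Ψ (le S a)‖ ≤ η) :
    ‖Ψ (ge S M * le S a) * Φ (vac A) * Ψ (vac S)‖ ^ 2 ≤ 8 * δ := by
  have hWf : ge S M * le S a = fun z => if M ≤ cnt S z ∧ cnt S z ≤ a then (1 : ℂ) else 0 := by
    funext z
    simp only [ge, le, Pi.mul_apply]
    by_cases h1 : M ≤ cnt S z <;> by_cases h2 : cnt S z ≤ a <;> simp [h1, h2]
  set W := Ψ (ge S M * le S a) with hW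
  set P := Φ (vac A) with hP
  set Q := Ψ (vac S) with hQ
  have sW : star W = W := by rw [hW, hWf]; exact star_ind Ψ _
  have sP : star P = P := star_ind Φ _
  have sQ : star Q = Q := star_ind Ψ _
  have nW : ‖W‖ ≤ 1 := by rw [hW, hWf]; exact norm_ind_le Ψ _
  have nP : ‖P‖ ≤ 1 := norm_vac_le _ _
  have nQ : ‖Q‖ ≤ 1 := norm_vac_le _ _
  have QQ : Q * Q = Q := by
    rw [hQ, ← map_mul]; congr 1; funext z; simp only [vac, Pi.mul_apply]; split_ifs <;> simp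
  set X := Q * P * W with hX
  have nX : ‖X‖ ≤ 1 := norm_three_le nQ nP nW
  have nPW : ‖P * W‖ ≤ 1 := (norm_mul_le _ _).trans (by nlinarith [norm_nonneg P, norm_nonneg W])
  have e0 : ‖W * P * Q‖ ^ 2 = ‖W * (P * X)‖ := by
    have : W * (P * X) = (W * P * Q) * star (W * P * Q) := by
      simp only [star_mul, sW, sP, sQ, hX]
      calc W * (P * (Q * P * W)) = W * P * (Q * Q) * P * W := by rw [QQ]; simp only [mul_assoc]
        _ = _ := by simp only [mul_assoc]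
    rw [this, CStarRing.norm_self_mul_star, sq]
  -- energy tail of `X`
  have t1 : ‖Ψ (ge S J) * (P * W)‖ ≤ ‖Ψ (ge S J) * P * Ψ (le S a)‖ := by
    rw [← mul_assoc]
    refine norm_right_le Ψ ?_ nW _
    funext z; simp only [ge, le, Pi.mul_apply]; split_ifs <;> simp
  have t2 : ‖Ψ (vac S - f) * (P * W)‖ ≤ 2 * η := by
    refine (norm_vac_sub_le Ψ S hη hBf hf hfJ _).trans ?_
    have : 2 * Bf * ‖Ψ (ge S J) * (P * W)‖ ≤ η := le_trans (by gcongr) h3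
    nlinarith
  have t3 : ‖Φ (ge A E) * X‖ ≤ 3 * η := by
    have : Φ (ge A E) * X =
        (Φ (ge A E) * Ψ f * P) * W + Φ (ge A E) * (Ψ (vac S - f) * (P * W)) := by
      rw [map_sub, hX, ← hQ]; noncomm_ring
    rw [this]
    calc _ ≤ ‖Φ (ge A E) * Ψ f * P‖ * ‖W‖ + ‖Φ (ge A E)‖ * ‖Ψ (vac S - f) * (P * W)‖ :=
          (norm_add_le _ _).trans (add_le_add (norm_mul_le _ _) (norm_mul_le _ _))
      _ ≤ η * 1 + 1 * (2 * η) := by gcongr; exact norm_ge_le _ _ _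
      _ = 3 * η := by ring
  have t4 : ‖Φ (vac A - p) * X‖ ≤ 7 * δ := by
    refine (norm_vac_sub_le Φ A hδ hBp hp hpE _).trans ?_
    have : 2 * Bp * ‖Φ (ge A E) * X‖ ≤ 2 * Bp * (3 * η) := by gcongr
    nlinarith
  have t5 : ‖W * Φ p * Q‖ ≤ δ := by
    refine le_trans ?_ h1
    rw [mul_assoc, mul_assoc]
    refine norm_left_le Ψ ?_ nW _
    funext z; simp only [ge, le, Pi.mul_apply]; split_ifs <;> simp
  rw [e0]
  have : W * (P * X) = (W * Φ p * Q) * (P * W) + W * (Φ (vac A - p) * X) := by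
    rw [map_sub, hX, ← hP]; noncomm_ring
  rw [this]
  calc _ ≤ ‖W * Φ p * Q‖ * ‖P * W‖ + ‖W‖ * ‖Φ (vac A - p) * X‖ :=
        (norm_add_le _ _).trans (add_le_add (norm_mul_le _ _) (norm_mul_le _ _))
    _ ≤ δ * 1 + 1 * (7 * δ) := by gcongr
    _ = 8 * δ := by ring

lemma two_pow_mul_half_pow {m n k : ℕ} (h : m + k ≤ n) :
    (2 : ℝ) ^ m * (1 / 2 : ℝ) ^ n ≤ (1 / 2 : ℝ) ^ k := by
  obtain ⟨r, rfl⟩ := Nat.exists_eq_add_of_le h
  have e : (2 : ℝ) ^ m * (1 / 2 : ℝ) ^ (m + k + r) = (1 / 2) ^ k * (1 / 2) ^ r := by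
    rw [pow_add, pow_add, ← mul_assoc, ← mul_assoc, ← mul_pow]; norm_num
  rw [e]
  exact mul_le_of_le_one_right (by positivity) (pow_le_one₀ (by norm_num) (by norm_num))

lemma three_le_of_hL {n L : ℕ} (hL : 8 * (n + 1) ≤ 2 ^ L) : 3 ≤ L := by
  by_contra h
  have : L ≤ 2 := by omega
  have : 2 ^ L ≤ 2 ^ 2 := Nat.pow_le_pow_right (by norm_num) this
  omega

/-- One step of the scale recursion. -/
theorem step {Φ Ψ : Frame ι 𝒜} {A : Finset ι} {L K κ x : ℕ}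
    (hL : 8 * (Fintype.card ι + 1) ≤ 2 ^ L) (h1 : Band Φ Ψ K) (h2 : Band Ψ Φ K) (hK : 1 ≤ K)
    (hκ : 2 ≤ κ) (h : ∀ x', κ * x ≤ x' → RHat Φ Ψ A κ x') :
    RHat Φ Ψ A (9072 * K ^ 2 * L ^ 8 * κ) x := by
  intro S
  rcases Nat.eq_zero_or_pos x with rfl | hx
  · simpa using norm_three_le (norm_ge_le Ψ S _) (norm_vac_le Φ A) (norm_vac_le Ψ S)
  have hL3 := three_le_of_hL hL
  have hL1 : 1 ≤ L := by omega
  obtain ⟨w, hw⟩ : ∃ w, w = 7 * x := ⟨_, rfl⟩
  obtain ⟨d2, hd2⟩ : ∃ d2, d2 = 12 * κ * L ^ 2 := ⟨_, rfl⟩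
  obtain ⟨d1, hd1⟩ : ∃ d1, d1 = 18 * K * L ^ 4 * d2 := ⟨_, rfl⟩
  obtain ⟨y, hy⟩ : ∃ y, y = 3 * L ^ 2 * d1 * w := ⟨_, rfl⟩
  obtain ⟨ρ, hρ⟩ : ∃ ρ, ρ = 2 * L * w * d1 := ⟨_, rfl⟩
  obtain ⟨Δ, hΔ⟩ : ∃ Δ, Δ = 2 * L * y * d2 := ⟨_, rfl⟩
  obtain ⟨a, ha⟩ : ∃ a, a = κ * (κ * x) := ⟨_, rfl⟩
  obtain ⟨Y, hY⟩ : ∃ Y, Y = L * a + (L * Δ + 1 + y) := ⟨_, rfl⟩
  have hw1 : 1 ≤ w := by omega
  have hd21 : 1 ≤ d2 := by rw [hd2]; exact Nat.succ_le_of_lt (by positivity)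
  have hd11 : 1 ≤ d1 := by rw [hd1]; exact Nat.succ_le_of_lt (by positivity)
  have hwq : w ≤ L ^ 2 * d1 * w := Nat.le_mul_of_pos_left _ (by positivity)
  have hLρ : L * ρ = 2 * (L ^ 2 * d1 * w) := by rw [hρ]; ring
  have hy' : y = 3 * (L ^ 2 * d1 * w) := by rw [hy]; ring
  have hρy : L * ρ + w ≤ y := by omega
  have hy1 : 1 ≤ y := by omega
  have hρL : ρ ≤ L * ρ := Nat.le_mul_of_pos_left _ hL1
  have hyΔ : y ≤ Δ := by
    have : Δ = (2 * L * d2) * y := by rw [hΔ]; ring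
    rw [this]; exact Nat.le_mul_of_pos_left _ (by positivity)
  have hΔL : Δ ≤ L * Δ := Nat.le_mul_of_pos_left _ hL1
  have hE : w * d1 ^ 2 = 3 * K * (L * Δ) := by
    rw [hΔ, hy, sq]; nth_rewrite 1 [hd1]; ring
  have hKE : K * (Δ + (L * Δ + y)) ≤ w * d1 ^ 2 := by
    rw [hE]; calc _ ≤ K * (3 * (L * Δ)) := Nat.mul_le_mul_left _ (by omega)
      _ = _ := by ring
  have hwE : w ≤ w * d1 ^ 2 := Nat.le_mul_of_pos_right _ (by positivity)
  have haL : a ≤ L * a := Nat.le_mul_of_pos_left _ hL1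
  have hYκ : Y ≤ κ * Y := Nat.le_mul_of_pos_left _ (by omega)
  have hyJ : y ≤ a + κ * Y := by omega
  have hκa : κ * x ≤ a := by rw [ha]; exact Nat.le_mul_of_pos_left _ (by omega)
  have hJ : a + κ * Y ≤ y * d2 ^ 2 := by
    have e1 : a + κ * Y ≤ κ * (2 * (L * a) + 3 * (L * Δ)) := by
      have : a ≤ κ * a := Nat.le_mul_of_pos_left _ (by omega)
      calc a + κ * Y ≤ κ * a + κ * Y := by omega
        _ = κ * (a + Y) := by ring
        _ ≤ _ := Nat.mul_le_mul_left _ (by omega)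
    have e2 : y * d2 ^ 2 = 2 * (κ * (3 * (L * Δ))) := by
      rw [hΔ, sq]; nth_rewrite 1 [hd2]; ring
    have e3 : κ * (3 * (L * Δ)) = (163296 * K * L ^ 11) * (κ * (2 * (L * a))) := by
      rw [hΔ, hy, hd1, hd2, hw, ha]; ring
    have e4 : κ * (2 * (L * a)) ≤ κ * (3 * (L * Δ)) := by
      rw [e3]; exact Nat.le_mul_of_pos_left _ (by positivity)
    calc _ ≤ κ * (2 * (L * a)) + κ * (3 * (L * Δ)) := by rw [← mul_add]; exact e1
      _ ≤ _ := by omega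
  have hM : 9072 * K ^ 2 * L ^ 8 * κ * x = K * (2 * y) := by
    rw [hy, hd1, hd2, hw]; ring
  obtain ⟨p, hp1, hp2, hp3⟩ := exists_and_poly A L (w * d1 ^ 2) w d1 hL hw1 hd11 hwE le_rfl
  obtain ⟨f, hf1, hf2, hf3⟩ := exists_and_poly S L (a + κ * Y) y d2 hL hy1 hd21 hyJ hJ
  rw [← hρ] at hp1 hp2
  rw [← hΔ] at hf1 hf2
  rw [hM]
  have key := core (Φ := Φ) (Ψ := Ψ) (A := A) (S := S) (M := K * (2 * y)) (a := a)
    (δ := (1 / 2 : ℝ) ^ w) (η := (1 / 2 : ℝ) ^ y) (by positivity) (by positivity)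
    (one_le_pow₀ (by norm_num)) (one_le_pow₀ (by norm_num)) (two_pow_mul_half_pow hρy)
    hp2 hp3 hf2 hf3
    ((h1.lowDeg (y := y) hp1 (Nat.mul_le_mul_left _ (by omega)) S).trans
      (two_pow_mul_half_pow hρy))
    ((h2.lowDeg (y := L * Δ + y) hf1 hKE A).trans (two_pow_mul_half_pow le_rfl))
    (by
      have := rh_general hL (h Y (by omega)) S a
      calc _ ≤ 2 * (2 : ℝ) ^ (L * Δ) * ((2 : ℝ) ^ (L * a) * (1 / 2 : ℝ) ^ Y) := by gcongr
        _ = (2 : ℝ) ^ (L * a + (L * Δ + 1)) * (1 / 2 : ℝ) ^ Y := by ring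
        _ ≤ _ := two_pow_mul_half_pow (by omega))
  have k1 : ‖Ψ (ge S (K * (2 * y)) * le S a) * Φ (vac A) * Ψ (vac S)‖ ≤ (1 / 2 : ℝ) ^ (x + 1) := by
    refine abs_le_of_sq_le_sq' (key.trans ?_) (by positivity) |>.2
    calc 8 * (1 / 2 : ℝ) ^ w = (2 : ℝ) ^ 3 * (1 / 2 : ℝ) ^ w := by norm_num
      _ ≤ (1 / 2 : ℝ) ^ ((x + 1) * 2) := two_pow_mul_half_pow (by omega)
      _ = _ := pow_mul _ _ _
  have k2 : ‖Ψ (ge S (K * (2 * y)) * ge S (a + 1)) * Φ (vac A) * Ψ (vac S)‖ ≤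
      (1 / 2 : ℝ) ^ (x + 1) := by
    have hh := h (κ * x) le_rfl S
    rw [← ha] at hh
    have hx1 : x + 1 ≤ κ * x := by nlinarith
    refine le_trans ?_ (hh.trans (pow_le_pow_of_le_one (by norm_num) (by norm_num) hx1))
    rw [mul_assoc, mul_assoc]
    refine norm_left_le Ψ ?_ ?_ _
    · funext z; simp only [ge, Pi.mul_apply]
      split_ifs with h1 h2 h3 <;> first | omega | simp
    · refine norm_frame_le Ψ _ zero_le_one fun z => ?_
      simp only [ge, Pi.mul_apply]; split_ifs <;> simp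
  have e : ge S (K * (2 * y)) =
      ge S (K * (2 * y)) * le S a + ge S (K * (2 * y)) * ge S (a + 1) := by
    funext z; simp only [ge, le, Pi.mul_apply, Pi.add_apply]
    split_ifs with h1 h2 h3 <;> first | omega | simp
  rw [e, map_add, add_mul, add_mul]
  calc _ ≤ (1 / 2 : ℝ) ^ (x + 1) + (1 / 2 : ℝ) ^ (x + 1) :=
        (norm_add_le _ _).trans (add_le_add k1 k2)
    _ = _ := by ring

/-- Two-sided bandedness implies the vacuum estimate. -/
theorem rh_of_band {Φ Ψ : Frame ι 𝒜} {L K B k : ℕ}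
    (hL : 8 * (Fintype.card ι + 1) ≤ 2 ^ L) (h1 : Band Φ Ψ K) (h2 : Band Ψ Φ K) (hK : 1 ≤ K)
    (hB : 2 ≤ B) (hk : Fintype.card ι + 1 ≤ B ^ k) :
    RH Φ Ψ ((9072 * K ^ 2 * L ^ 8) ^ k * B) := by
  have hL3 := three_le_of_hL hL
  have hQ : 0 < 9072 * K ^ 2 * L ^ 8 := by positivity
  intro A
  have main : ∀ j x : ℕ, Fintype.card ι + 1 ≤ B ^ j * x →
      RHat Φ Ψ A ((9072 * K ^ 2 * L ^ 8) ^ j * B) x := by
    intro j
    induction j with
    | zero =>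
      intro x hx S
      have : ge S ((9072 * K ^ 2 * L ^ 8) ^ 0 * B * x) = 0 := by
        funext z
        have := cnt_le_card S z
        have h3 : x ≤ B * x := Nat.le_mul_of_pos_left _ (by omega)
        simp only [ge, pow_zero, one_mul] at hx ⊢
        rw [if_neg (by omega)]; rfl
      rw [this]; simp
    | succ j ih =>
      intro x hx
      have hκ : B ≤ (9072 * K ^ 2 * L ^ 8) ^ j * B := Nat.le_mul_of_pos_left _ (by positivity)
      have := step (A := A) (x := x) hL h1 h2 hK (hB.trans hκ) fun x' hx' => ih x' (by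
        calc _ ≤ B ^ j * (B * x) := by rw [← mul_assoc, ← pow_succ]; exact hx
          _ ≤ B ^ j * x' := Nat.mul_le_mul_left _ ((Nat.mul_le_mul_right _ hκ).trans hx'))
      rwa [← mul_assoc, ← pow_succ'] at this
  intro x
  rcases Nat.eq_zero_or_pos x with rfl | hx
  · intro S
    simpa using norm_three_le (norm_ge_le Ψ S _) (norm_vac_le Φ A) (norm_vac_le Ψ S)
  · exact main k x (hk.trans (Nat.le_mul_of_pos_right _ hx))

end Crest.Agent.R344
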